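import Mathlib

/-!
# ROW 252 (S0492), unit S2aA (post BP-252-S2aA, sub-architect helper129), file 1: DENSITIES OF OBSERVATIONS, ABSTRACT LAYER.      CONTRACT file: the `sorry`s are the leaves L-252-K2A-DEN-*.

Paper: 02-framework.tex l.147-200 (`a01:density-operations`), l.352-388 (`a01:angular-coarsening`, the one-scale computation).      Mathlib only; ONE world, ONE scale, no sequences.

## Vocabulary
* `Ω` = incidences of one world, `μ` = the unnormalised incidence measure, `b : Ω → O` = exact base `(t, y(t))`, `vol` = `dt dy`;   `ℓ : Ω → D` = a discrete label (`D` countable).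
* `k2aPart μ b ℓ d`  = push-forward to the base of the part of `μ` with label `d`;   `k2aDen vol μ b ℓ d o` = its density;   `k2aDn vol μ b ℓ x` = the density at the sampled incidence.
  `KbPb.part / den / dn` of `Base/Pb.lean` are these objects BY `rfl` (`μ = P.mu γ`, `b = P.bs γ`, `ℓ = ℓ γ`, `vol = volume`): see `S2a/PbContract.lean`.
* `K2aFr vol μ b` = standing hypotheses (σ-finite base, finite `μ`, measurable `b`, `μ.map b ≪ vol`);   `K2aLab ℓ` = all events of the label are measurable.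
All slacks are elements of `ℝ≥0∞`, all floors are multiplicative: no division, no finiteness side conditions.

## Proof pattern (all leaves)
`k2a_measure`:  `μ {x | b x ∈ T (ℓ x)} = ∑' d, ∫⁻ o in T d, den d o ∂vol`.   Every set below has this form with `T d` defined by (in)equalities between the measurable functions `den · d`.
Identities between densities are proved as identities between the measures `k2aPart` (`Measure.rnDeriv_add`, `Measure.rnDeriv_restrict`, `Measure.rnDeriv_withDensity`, `Measure.withDensity_rnDeriv_eq`,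
`ae_le_of_forall_setLIntegral_le_of_sigmaFinite`) and are transported to incidences by `k2a_ae_of_ae`.
-/

set_option autoImplicit false

namespace Claimed.Agent.R252

open MeasureTheory
open scoped ENNReal BigOperators

noncomputable section

variable {Ω O : Type} [MeasurableSpace Ω] [MeasurableSpace O] {D D' E : Type}

/-! ## 1. Definitions -/

/-- the base measure of the part of `μ` with label `d` -/
def k2aPart (μ : Measure Ω) (b : Ω → O) (ℓ : Ω → D) (d : D) : Measure O := (μ.restrict (ℓ ⁻¹' {d})).map b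

/-- density of the observation (exact base, label) w.r.t. `vol` and counting measure -/
def k2aDen (vol : Measure O) (μ : Measure Ω) (b : Ω → O) (ℓ : Ω → D) (d : D) (o : O) : ℝ≥0∞ := (k2aPart μ b ℓ d).rnDeriv vol o

/-- the same at the sampled incidence -/
def k2aDn (vol : Measure O) (μ : Measure Ω) (b : Ω → O) (ℓ : Ω → D) (x : Ω) : ℝ≥0∞ := k2aDen vol μ b ℓ (ℓ x) (b x)

/-- two labels together -/
def k2aPair (ℓ : Ω → D) (ℓ' : Ω → D') : Ω → D × D' := fun x => (ℓ x, ℓ' x)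

/-- standing hypotheses -/
structure K2aFr (vol : Measure O) (μ : Measure Ω) (b : Ω → O) : Prop where
  sf : SigmaFinite vol
  fin : IsFiniteMeasure μ
  bm : Measurable b
  ac : μ.map b ≪ vol

/-- all events of the label are measurable -/
def K2aLab (ℓ : Ω → D) : Prop := ∀ d, MeasurableSet (ℓ ⁻¹' {d})

variable {vol : Measure O} {μ μ' : Measure Ω} {b : Ω → O} {ℓ : Ω → D} {ℓ' : Ω → D'}

/-! ## 2. Leaf L-252-K2A-DEN-1 : frames, measurability, the transfer formula -/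

theorem k2a_fr_mono (h : K2aFr vol μ b) (hle : μ' ≤ μ) : K2aFr vol μ' b := by
  have := h.fin
  exact ⟨h.sf, isFiniteMeasure_of_le μ hle, h.bm,
    (Measure.absolutelyContinuous_of_le (Measure.map_mono hle h.bm)).trans h.ac⟩

theorem k2a_fr_restrict (h : K2aFr vol μ b) (S : Set Ω) : K2aFr vol (μ.restrict S) b :=
  k2a_fr_mono h Measure.restrict_le_self

theorem k2a_lab_pair (hℓ : K2aLab ℓ) (hℓ' : K2aLab ℓ') : K2aLab (k2aPair ℓ ℓ') := by
  rintro ⟨d, d'⟩
  have : k2aPair ℓ ℓ' ⁻¹' {(d, d')} = ℓ ⁻¹' {d} ∩ ℓ' ⁻¹' {d'} := by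
    ext x
    simp [k2aPair, Prod.ext_iff]
  rw [this]
  exact (hℓ d).inter (hℓ' d')

theorem k2a_lab_comp [Countable D] (hℓ : K2aLab ℓ) (φ : D → E) : K2aLab (φ ∘ ℓ) := by
  intro e
  have : (φ ∘ ℓ) ⁻¹' {e} = ⋃ d ∈ {d | φ d = e}, ℓ ⁻¹' {d} := by
    ext x
    simp
  rw [this]
  exact MeasurableSet.biUnion (Set.to_countable _) fun d _ => hℓ d

theorem k2a_part_ac (h : K2aFr vol μ b) (ℓ : Ω → D) (d : D) : k2aPart μ b ℓ d ≪ vol := by
  exact (Measure.absolutelyContinuous_of_le (Measure.map_mono Measure.restrict_le_self h.bm)).trans h.ac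

theorem k2a_part_withDensity (h : K2aFr vol μ b) (ℓ : Ω → D) (d : D) : vol.withDensity (k2aDen vol μ b ℓ d) = k2aPart μ b ℓ d := by
  have := h.sf
  have := h.fin
  have : IsFiniteMeasure (k2aPart μ b ℓ d) := by unfold k2aPart; infer_instance
  exact Measure.withDensity_rnDeriv_eq _ _ (k2a_part_ac h ℓ d)

theorem k2a_den_meas (vol : Measure O) (μ : Measure Ω) (b : Ω → O) (ℓ : Ω → D) (d : D) : Measurable (k2aDen vol μ b ℓ d) :=
  Measure.measurable_rnDeriv _ _

/-- (preimage of a set `= ⋃ d, ℓ ⁻¹' {d} ∩ b ⁻¹' (den d ⁻¹' ·)`, a countable union) -/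
theorem k2a_dn_meas [Countable D] (h : K2aFr vol μ b) (hℓ : K2aLab ℓ) (μ₁ : Measure Ω) : Measurable (k2aDn vol μ₁ b ℓ) := by
  intro s hs
  have : k2aDn vol μ₁ b ℓ ⁻¹' s = ⋃ d, ℓ ⁻¹' {d} ∩ b ⁻¹' (k2aDen vol μ₁ b ℓ d ⁻¹' s) := by
    ext x
    simp [k2aDn]
  rw [this]
  exact MeasurableSet.iUnion fun d => (hℓ d).inter (h.bm (k2a_den_meas vol μ₁ b ℓ d hs))

/-- a set which is determined by the observation is measurable -/
theorem k2a_obs_meas [Countable D] (h : K2aFr vol μ b) (hℓ : K2aLab ℓ) {T : D → Set O} (hT : ∀ d, MeasurableSet (T d)) :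
    MeasurableSet {x | b x ∈ T (ℓ x)} := by
  have : {x | b x ∈ T (ℓ x)} = ⋃ d, ℓ ⁻¹' {d} ∩ b ⁻¹' (T d) := by
    ext x
    simp
  rw [this]
  exact MeasurableSet.iUnion fun d => (hℓ d).inter (h.bm (hT d))

/-- **the transfer formula** (`lintegral_iUnion` over the partition `ℓ ⁻¹' {d}`, `lintegral_map`, `k2a_part_withDensity`, `lintegral_withDensity_eq_lintegral_mul`) -/
theorem k2a_lintegral [Countable D] (h : K2aFr vol μ b) (hℓ : K2aLab ℓ) {F : D → O → ℝ≥0∞} (hF : ∀ d, Measurable (F d)) :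
    ∫⁻ x, F (ℓ x) (b x) ∂μ = ∑' d, ∫⁻ o, F d o * k2aDen vol μ b ℓ d o ∂vol := by
  have hU : (⋃ d, ℓ ⁻¹' {d}) = Set.univ := by
    ext x
    simp
  have hd : Pairwise (Function.onFun Disjoint fun d => ℓ ⁻¹' {d}) := by
    intro d d' hdd
    refine Set.disjoint_left.2 fun x hx hx' => hdd ?_
    rw [Set.mem_preimage, Set.mem_singleton_iff] at hx hx'
    rw [← hx, ← hx']
  rw [← setLIntegral_univ, ← hU, lintegral_iUnion hℓ hd]
  refine tsum_congr fun d => ?_
  have h1 : ∫⁻ x in ℓ ⁻¹' {d}, F (ℓ x) (b x) ∂μ = ∫⁻ x in ℓ ⁻¹' {d}, F d (b x) ∂μ :=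
    setLIntegral_congr_fun (hℓ d) fun x hx => by
      rw [Set.mem_preimage, Set.mem_singleton_iff] at hx
      rw [hx]
  rw [h1, ← lintegral_map (hF d) h.bm]
  show ∫⁻ o, F d o ∂(k2aPart μ b ℓ d) = _
  rw [← k2a_part_withDensity h ℓ d, lintegral_withDensity_eq_lintegral_mul vol (k2a_den_meas vol μ b ℓ d) (hF d)]
  refine lintegral_congr fun o => ?_
  rw [Pi.mul_apply, mul_comm]

theorem k2a_measure [Countable D] (h : K2aFr vol μ b) (hℓ : K2aLab ℓ) {T : D → Set O} (hT : ∀ d, MeasurableSet (T d)) :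
    μ {x | b x ∈ T (ℓ x)} = ∑' d, ∫⁻ o in T d, k2aDen vol μ b ℓ d o ∂vol := by
  have h1 := k2a_lintegral h hℓ (F := fun d => (T d).indicator 1) (fun d => measurable_one.indicator (hT d))
  have h2 : ∫⁻ x, (T (ℓ x)).indicator (1 : O → ℝ≥0∞) (b x) ∂μ = μ {x | b x ∈ T (ℓ x)} := by
    rw [← lintegral_indicator_one (k2a_obs_meas h hℓ hT)]
    refine lintegral_congr fun x => ?_
    by_cases hx : b x ∈ T (ℓ x)
    · rw [Set.indicator_of_mem hx, Set.indicator_of_mem (show x ∈ {x | b x ∈ T (ℓ x)} from hx), Pi.one_apply, Pi.one_apply]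
    · rw [Set.indicator_of_notMem hx, Set.indicator_of_notMem (show x ∉ {x | b x ∈ T (ℓ x)} from hx)]
  rw [← h2, h1]
  refine tsum_congr fun d => ?_
  rw [← lintegral_indicator (hT d)]
  refine lintegral_congr fun o => ?_
  by_cases ho : o ∈ T d
  · rw [Set.indicator_of_mem ho, Set.indicator_of_mem ho, Pi.one_apply, one_mul]
  · rw [Set.indicator_of_notMem ho, Set.indicator_of_notMem ho, zero_mul]

theorem k2a_total [Countable D] (h : K2aFr vol μ b) (hℓ : K2aLab ℓ) : ∑' d, ∫⁻ o, k2aDen vol μ b ℓ d o ∂vol = μ Set.univ := by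
  have h1 := k2a_measure h hℓ (T := fun _ => Set.univ) (fun _ => MeasurableSet.univ)
  have h2 : {x | b x ∈ (Set.univ : Set O)} = Set.univ := Set.eq_univ_of_forall fun x => Set.mem_univ _
  rw [h2] at h1
  simp only [Measure.restrict_univ] at h1
  exact h1.symm

/-- a.e. statements on the base are a.e. statements on incidences -/
theorem k2a_ae_of_ae [Countable D] (h : K2aFr vol μ b) {p : D → O → Prop} (hp : ∀ d, ∀ᵐ o ∂vol, p d o) : ∀ᵐ x ∂μ, p (ℓ x) (b x) := by
  have h1 : ∀ᵐ o ∂vol, ∀ d, p d o := ae_all_iff.2 hp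
  have h2 : ∀ᵐ o ∂(μ.map b), ∀ d, p d o := h.ac.ae_le h1
  filter_upwards [ae_of_ae_map h.bm.aemeasurable h2] with x hx
  exact hx (ℓ x)

/-- densities are finite and positive at almost every sampled incidence -/
theorem k2a_dn_pos [Countable D] (h : K2aFr vol μ b) (hℓ : K2aLab ℓ) : ∀ᵐ x ∂μ, 0 < k2aDn vol μ b ℓ x ∧ k2aDn vol μ b ℓ x < ⊤ := by
  have := h.sf
  have := h.fin
  have hfin : ∀ᵐ x ∂μ, k2aDn vol μ b ℓ x < ⊤ := by
    refine k2a_ae_of_ae (ℓ := ℓ) (p := fun d o => k2aDen vol μ b ℓ d o < ⊤) h fun d => ?_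
    have : IsFiniteMeasure (k2aPart μ b ℓ d) := by unfold k2aPart; infer_instance
    exact Measure.rnDeriv_lt_top _ _
  have hT : ∀ d, MeasurableSet {o | k2aDen vol μ b ℓ d o = 0} := fun d =>
    k2a_den_meas vol μ b ℓ d (measurableSet_singleton 0)
  have h0 : μ {x | b x ∈ {o | k2aDen vol μ b ℓ (ℓ x) o = 0}} = 0 := by
    rw [k2a_measure h hℓ hT]
    refine ENNReal.tsum_eq_zero.2 fun d => ?_
    rw [setLIntegral_congr_fun (hT d) (g := fun _ => 0) fun o ho => ho]
    simp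
  have hpos : ∀ᵐ x ∂μ, k2aDn vol μ b ℓ x ≠ 0 := by
    rw [ae_iff]
    have e : {x | ¬ k2aDn vol μ b ℓ x ≠ 0} = {x | b x ∈ {o | k2aDen vol μ b ℓ (ℓ x) o = 0}} := by
      ext x
      exact not_not
    rw [e]
    exact h0
  filter_upwards [hfin, hpos] with x h1 h2
  exact ⟨pos_iff_ne_zero.2 h2, h1⟩

/-! ## 3. Leaf L-252-K2A-DEN-2 : restriction  (2.4) -/

/-- monotonicity of the Radon-Nikodym derivative -/
theorem k2a_rnDeriv_mono {ν₁ ν₂ : Measure O} [SigmaFinite vol] [IsFiniteMeasure ν₂]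
    (h2 : ν₂ ≪ vol) (hle : ν₁ ≤ ν₂) : ν₁.rnDeriv vol ≤ᵐ[vol] ν₂.rnDeriv vol := by
  refine ae_le_of_forall_setLIntegral_le_of_sigmaFinite (Measure.measurable_rnDeriv _ _) fun s _ _ => ?_
  calc ∫⁻ x in s, ν₁.rnDeriv vol x ∂vol ≤ ν₁ s := Measure.setLIntegral_rnDeriv_le s
    _ ≤ ν₂ s := hle s
    _ = ∫⁻ x in s, ν₂.rnDeriv vol x ∂vol := (Measure.setLIntegral_rnDeriv h2 s).symm

/-- a smaller measure on a smaller event has a smaller density -/
theorem k2a_den_le_of_subset (h : K2aFr vol μ b) (hle : μ' ≤ μ) {ℓ₁ : Ω → D} {ℓ₂ : Ω → E} {d₁ : D} {d₂ : E}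
    (hsub : ℓ₁ ⁻¹' {d₁} ⊆ ℓ₂ ⁻¹' {d₂}) : k2aDen vol μ' b ℓ₁ d₁ ≤ᵐ[vol] k2aDen vol μ b ℓ₂ d₂ := by
  have := h.sf
  have := h.fin
  have : IsFiniteMeasure (k2aPart μ b ℓ₂ d₂) := by
    unfold k2aPart
    infer_instance
  exact k2a_rnDeriv_mono (k2a_part_ac h ℓ₂ d₂) (Measure.map_mono (Measure.restrict_mono hsub hle) h.bm)

theorem k2a_den_mono (h : K2aFr vol μ b) (hle : μ' ≤ μ) (ℓ : Ω → D) (d : D) : k2aDen vol μ' b ℓ d ≤ᵐ[vol] k2aDen vol μ b ℓ d := by
  exact k2a_den_le_of_subset h hle (le_refl _)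

theorem k2a_dn_mono [Countable D] (h : K2aFr vol μ b) (hle : μ' ≤ μ) (ℓ : Ω → D) : ∀ᵐ x ∂μ, k2aDn vol μ' b ℓ x ≤ k2aDn vol μ b ℓ x := by
  exact k2a_ae_of_ae (ℓ := ℓ) h (p := fun d o => k2aDen vol μ' b ℓ d o ≤ k2aDen vol μ b ℓ d o)
    (fun d => k2a_den_mono h hle ℓ d)

/-- **(2.4)**: `∫_{g' < ε g} g' ≤ ε ∫ g`.   (No relation between `μ'` and `μ` is needed.) -/
theorem k2a_restrict_small [Countable D] (h : K2aFr vol μ b) (h' : K2aFr vol μ' b) (hℓ : K2aLab ℓ) (ε : ℝ≥0∞) :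
    μ' {x | k2aDn vol μ' b ℓ x < ε * k2aDn vol μ b ℓ x} ≤ ε * μ Set.univ := by
  have hT : ∀ d, MeasurableSet {o | k2aDen vol μ' b ℓ d o < ε * k2aDen vol μ b ℓ d o} := fun d =>
    measurableSet_lt (k2a_den_meas vol μ' b ℓ d) ((k2a_den_meas vol μ b ℓ d).const_mul ε)
  have h1 := k2a_measure h' hℓ hT
  have e : {x | k2aDn vol μ' b ℓ x < ε * k2aDn vol μ b ℓ x} =
      {x | b x ∈ {o | k2aDen vol μ' b ℓ (ℓ x) o < ε * k2aDen vol μ b ℓ (ℓ x) o}} := rfl
  rw [e, h1, ← k2a_total h hℓ, ← ENNReal.tsum_mul_left]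
  refine ENNReal.tsum_le_tsum fun d => ?_
  rw [← lintegral_const_mul ε (k2a_den_meas vol μ b ℓ d)]
  refine (setLIntegral_mono' (hT d) fun o ho => le_of_lt ho).trans (setLIntegral_le_lintegral _ _)

/-! ## 4. Leaf L-252-K2A-DEN-3 : refinement by a discrete label -/

theorem k2a_den_pair_le (h : K2aFr vol μ b) (ℓ : Ω → D) (ℓ' : Ω → D') (d : D) (d' : D') :
    k2aDen vol μ b (k2aPair ℓ ℓ') (d, d') ≤ᵐ[vol] k2aDen vol μ b ℓ d := by
  refine k2a_den_le_of_subset h le_rfl fun x hx => ?_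
  exact congrArg Prod.fst (show (ℓ x, ℓ' x) = (d, d') from hx)

theorem k2a_dn_pair_le [Countable D] [Countable D'] (h : K2aFr vol μ b) (ℓ : Ω → D) (ℓ' : Ω → D') :
    ∀ᵐ x ∂μ, k2aDn vol μ b (k2aPair ℓ ℓ') x ≤ k2aDn vol μ b ℓ x := by
  exact k2a_ae_of_ae (ℓ := k2aPair ℓ ℓ') h
    (p := fun dd o => k2aDen vol μ b (k2aPair ℓ ℓ') dd o ≤ k2aDen vol μ b ℓ dd.1 o)
    (fun dd => k2a_den_pair_le h ℓ ℓ' dd.1 dd.2)

/-- **refinement**: if the new label lies in a list of size `≤ n` depending on the old observation, the refined mass at entries of density `< ε g` is `≤ ε n ∫ g`.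
(`den (d,d') = 0` a.e. on `{o | d' ∉ Lst d o}` by `k2a_measure`; then `∑_{d'} ∫_{..} den (d,d') ≤ ∫ ∑_{d' ∈ Lst d o} ε den d`.) -/
theorem k2a_refine_small [Countable D] [Countable D'] (h : K2aFr vol μ b) (hℓ : K2aLab ℓ) (hℓ' : K2aLab ℓ') (Lst : D → O → Finset D') (n : ℕ)
    (hcard : ∀ d o, (Lst d o).card ≤ n) (hmeas : ∀ d d', MeasurableSet {o | d' ∈ Lst d o}) (hmem : ∀ᵐ x ∂μ, ℓ' x ∈ Lst (ℓ x) (b x)) (ε : ℝ≥0∞) :
    μ {x | k2aDn vol μ b (k2aPair ℓ ℓ') x < ε * k2aDn vol μ b ℓ x} ≤ ε * n * μ Set.univ := by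
  classical
  have hT : ∀ dd : D × D', MeasurableSet ({o | k2aDen vol μ b (k2aPair ℓ ℓ') dd o < ε * k2aDen vol μ b ℓ dd.1 o} ∩
      {o | dd.2 ∈ Lst dd.1 o}) := fun dd =>
    (measurableSet_lt (k2a_den_meas vol μ b _ dd) ((k2a_den_meas vol μ b ℓ dd.1).const_mul ε)).inter (hmeas dd.1 dd.2)
  have h1 := k2a_measure h (k2a_lab_pair hℓ hℓ') hT
  have h2 : μ {x | k2aDn vol μ b (k2aPair ℓ ℓ') x < ε * k2aDn vol μ b ℓ x} ≤
      μ {x | b x ∈ ({o | k2aDen vol μ b (k2aPair ℓ ℓ') (k2aPair ℓ ℓ' x) o < ε * k2aDen vol μ b ℓ (k2aPair ℓ ℓ' x).1 o} ∩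
        {o | (k2aPair ℓ ℓ' x).2 ∈ Lst (k2aPair ℓ ℓ' x).1 o})} := by
    refine measure_mono_ae ?_
    filter_upwards [hmem] with x hx hxS
    exact ⟨hxS, hx⟩
  refine h2.trans ?_
  rw [h1]
  obtain ⟨G, hG⟩ : ∃ G : D → D' → ℝ≥0∞, ∀ d d', G d d' =
      ∫⁻ o, {o | d' ∈ Lst d o}.indicator (fun o => ε * k2aDen vol μ b ℓ d o) o ∂vol := ⟨_, fun _ _ => rfl⟩
  have h3 : ∀ dd : D × D', ∫⁻ o in ({o | k2aDen vol μ b (k2aPair ℓ ℓ') dd o < ε * k2aDen vol μ b ℓ dd.1 o} ∩
      {o | dd.2 ∈ Lst dd.1 o}), k2aDen vol μ b (k2aPair ℓ ℓ') dd o ∂vol ≤ G dd.1 dd.2 := by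
    intro dd
    rw [hG, lintegral_indicator (hmeas dd.1 dd.2)]
    refine (setLIntegral_mono' (hT dd) fun o ho => le_of_lt ho.1).trans ?_
    exact lintegral_mono' (Measure.restrict_mono Set.inter_subset_right le_rfl) le_rfl
  refine (ENNReal.tsum_le_tsum h3).trans ?_
  rw [ENNReal.tsum_prod (f := G), ← k2a_total h hℓ, ← ENNReal.tsum_mul_left]
  refine ENNReal.tsum_le_tsum fun d => ?_
  simp only [hG]
  rw [← lintegral_tsum fun d' => (((k2a_den_meas vol μ b ℓ d).const_mul ε).indicator (hmeas d d')).aemeasurable,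
    ← lintegral_const_mul _ (k2a_den_meas vol μ b ℓ d)]
  refine lintegral_mono fun o => ?_
  have e1 : ∑' d', {o | d' ∈ Lst d o}.indicator (fun o => ε * k2aDen vol μ b ℓ d o) o =
      ∑ d' ∈ Lst d o, ε * k2aDen vol μ b ℓ d o := by
    rw [tsum_eq_sum (s := Lst d o) fun d' hd' => Set.indicator_of_notMem (by exact hd') _]
    exact Finset.sum_congr rfl fun d' hd' => Set.indicator_of_mem (by exact hd') _
  rw [e1, Finset.sum_const, nsmul_eq_mul]
  calc ((Lst d o).card : ℝ≥0∞) * (ε * k2aDen vol μ b ℓ d o) ≤ (n : ℝ≥0∞) * (ε * k2aDen vol μ b ℓ d o) :=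
        mul_le_mul_left (by exact_mod_cast hcard d o) _
    _ = ε * n * k2aDen vol μ b ℓ d o := by ring

/-- appending a function of the label changes nothing (the events coincide: EXACT equality) -/
theorem k2a_dn_pair_fun (vol : Measure O) (μ : Measure Ω) (b : Ω → O) (ℓ : Ω → D) (φ : D → E) (x : Ω) :
    k2aDn vol μ b (k2aPair (φ ∘ ℓ) ℓ) x = k2aDn vol μ b ℓ x := by
  have e : k2aPair (φ ∘ ℓ) ℓ ⁻¹' {k2aPair (φ ∘ ℓ) ℓ x} = ℓ ⁻¹' {ℓ x} := by
    ext y
    constructor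
    · intro hy
      exact congrArg Prod.snd (show (φ (ℓ y), ℓ y) = (φ (ℓ x), ℓ x) from hy)
    · intro hy
      have hy' : ℓ y = ℓ x := hy
      show (φ (ℓ y), ℓ y) = (φ (ℓ x), ℓ x)
      rw [hy']
  unfold k2aDn k2aDen k2aPart
  rw [e]

/-- relabelling by an injective map changes nothing -/
theorem k2a_dn_inj (vol : Measure O) (μ : Measure Ω) (b : Ω → O) (ℓ : Ω → D) {φ : D → E} (hφ : Function.Injective φ) (x : Ω) :
    k2aDn vol μ b (φ ∘ ℓ) x = k2aDn vol μ b ℓ x := by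
  have e : (φ ∘ ℓ) ⁻¹' {(φ ∘ ℓ) x} = ℓ ⁻¹' {ℓ x} := by
    ext y
    constructor
    · intro hy
      exact hφ hy
    · intro hy
      have hy' : ℓ y = ℓ x := hy
      show φ (ℓ y) = φ (ℓ x)
      rw [hy']
  unfold k2aDn k2aDen k2aPart
  rw [e]

/-- a coarser label has a larger density -/
theorem k2a_dn_comp_le [Countable D] (h : K2aFr vol μ b) (ℓ : Ω → D) (φ : D → E) : ∀ᵐ x ∂μ, k2aDn vol μ b ℓ x ≤ k2aDn vol μ b (φ ∘ ℓ) x := by
  refine k2a_ae_of_ae (ℓ := ℓ) h (p := fun d o => k2aDen vol μ b ℓ d o ≤ k2aDen vol μ b (φ ∘ ℓ) (φ d) o) fun d => ?_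
  refine k2a_den_le_of_subset h le_rfl fun x hx => ?_
  have hx' : ℓ x = d := hx
  show φ (ℓ x) = φ d
  rw [hx']

/-- **refinement, functional form**: `φ` has fibres of size `≤ n` -/
theorem k2a_comp_small [Countable D] [Countable E] (h : K2aFr vol μ b) (hℓ : K2aLab ℓ) (φ : D → E) (Fb : E → Finset D) (n : ℕ) (hcard : ∀ e, (Fb e).card ≤ n)
    (hmem : ∀ᵐ x ∂μ, ℓ x ∈ Fb (φ (ℓ x))) (ε : ℝ≥0∞) :
    μ {x | k2aDn vol μ b ℓ x < ε * k2aDn vol μ b (φ ∘ ℓ) x} ≤ ε * n * μ Set.univ := by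
  have h1 := k2a_refine_small h (k2a_lab_comp hℓ φ) hℓ (fun e _ => Fb e) n (fun e _ => hcard e)
    (fun e d => MeasurableSet.const _) hmem ε
  simp only [k2a_dn_pair_fun] at h1
  exact h1

/-! ## 5. Leaf L-252-K2A-DEN-4 : omitted mass, integration of ceilings -/

theorem k2a_den_add (h : K2aFr vol μ b) {S : Set Ω} (hS : MeasurableSet S) (ℓ : Ω → D) (d : D) :
    k2aDen vol μ b ℓ d =ᵐ[vol] fun o => k2aDen vol (μ.restrict S) b ℓ d o + k2aDen vol (μ.restrict Sᶜ) b ℓ d o := by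
  have := h.sf
  have := h.fin
  have e : k2aPart μ b ℓ d = k2aPart (μ.restrict S) b ℓ d + k2aPart (μ.restrict Sᶜ) b ℓ d := by
    unfold k2aPart
    rw [← Measure.map_add _ _ h.bm, Measure.restrict_restrict' hS, Measure.restrict_restrict' hS.compl,
      Set.inter_comm _ S, Set.inter_comm _ Sᶜ, ← Measure.restrict_restrict hS, ← Measure.restrict_restrict hS.compl,
      Measure.restrict_add_restrict_compl hS]
  have : IsFiniteMeasure (k2aPart (μ.restrict S) b ℓ d) := by unfold k2aPart; infer_instance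
  have : IsFiniteMeasure (k2aPart (μ.restrict Sᶜ) b ℓ d) := by unfold k2aPart; infer_instance
  have := Measure.rnDeriv_add (k2aPart (μ.restrict S) b ℓ d) (k2aPart (μ.restrict Sᶜ) b ℓ d) vol
  unfold k2aDen
  rw [e]
  exact this

/-- **omitted-mass comparison** (02 l.190-199): outside mass `2 μ(Sᶜ)` the total density is at most twice the good density -/
theorem k2a_omit [Countable D] (h : K2aFr vol μ b) (hℓ : K2aLab ℓ) {S : Set Ω} (hS : MeasurableSet S) :
    μ {x | 2 * k2aDn vol (μ.restrict S) b ℓ x < k2aDn vol μ b ℓ x} ≤ 2 * μ Sᶜ := by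
  have hT : ∀ d, MeasurableSet {o | 2 * k2aDen vol (μ.restrict S) b ℓ d o < k2aDen vol μ b ℓ d o} := fun d =>
    measurableSet_lt ((k2a_den_meas _ _ _ _ _).const_mul _) (k2a_den_meas _ _ _ _ _)
  have h1 := k2a_measure h hℓ hT
  have h2 := k2a_total (k2a_fr_restrict h Sᶜ) hℓ
  have e : {x | 2 * k2aDn vol (μ.restrict S) b ℓ x < k2aDn vol μ b ℓ x}
      = {x | b x ∈ {o | 2 * k2aDen vol (μ.restrict S) b ℓ (ℓ x) o < k2aDen vol μ b ℓ (ℓ x) o}} := rfl
  rw [e, h1]
  have h3 : μ Sᶜ = (μ.restrict Sᶜ) Set.univ := by simp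
  rw [h3, ← h2, ← ENNReal.tsum_mul_left]
  refine ENNReal.tsum_le_tsum fun d => ?_
  rw [← lintegral_const_mul _ (k2a_den_meas _ _ _ _ _)]
  refine (setLIntegral_mono_ae ((k2a_den_meas _ _ _ _ _).const_mul 2).aemeasurable ?_).trans
    (setLIntegral_le_lintegral _ _)
  filter_upwards [k2a_den_add h hS ℓ d] with o ho hlt
  change 2 * k2aDen vol (μ.restrict S) b ℓ d o < k2aDen vol μ b ℓ d o at hlt
  rw [ho] at hlt ⊢
  have hle : k2aDen vol (μ.restrict S) b ℓ d o ≤ k2aDen vol (μ.restrict Sᶜ) b ℓ d o := by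
    by_contra hcon
    push Not at hcon
    refine absurd hlt (not_lt.2 ?_)
    rw [two_mul]
    gcongr
  rw [two_mul]
  gcongr

/-- upper density bounds may be integrated over base regions and summed over discrete entries -/
theorem k2a_ceiling [Countable D] (h : K2aFr vol μ b) (hℓ : K2aLab ℓ) (F : Finset D) {A : Set O} (hA : MeasurableSet A) (hi : ℝ≥0∞) :
    μ {x | ℓ x ∈ F ∧ b x ∈ A ∧ k2aDn vol μ b ℓ x ≤ hi} ≤ hi * F.card * vol A := by
  classical
  set T : D → Set O := fun d => if d ∈ F then A ∩ {o | k2aDen vol μ b ℓ d o ≤ hi} else ∅ with hTdef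
  have hT : ∀ d, MeasurableSet (T d) := fun d => by
    by_cases hd : d ∈ F
    · simp only [hTdef, hd, if_true]
      exact hA.inter (measurableSet_le (k2a_den_meas _ _ _ _ _) measurable_const)
    · simp only [hTdef, hd, if_false]
      exact MeasurableSet.empty
  have e : {x | ℓ x ∈ F ∧ b x ∈ A ∧ k2aDn vol μ b ℓ x ≤ hi} = {x | b x ∈ T (ℓ x)} := by
    ext x
    by_cases hd : ℓ x ∈ F
    · simp [hTdef, hd, k2aDn]
    · simp [hTdef, hd]
  rw [e, k2a_measure h hℓ hT, tsum_eq_sum (s := F)]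
  · calc ∑ d ∈ F, ∫⁻ o in T d, k2aDen vol μ b ℓ d o ∂vol ≤ ∑ d ∈ F, hi * vol A := by
          refine Finset.sum_le_sum fun d hd => ?_
          have hTd : T d = A ∩ {o | k2aDen vol μ b ℓ d o ≤ hi} := by simp [hTdef, hd]
          calc ∫⁻ o in T d, k2aDen vol μ b ℓ d o ∂vol ≤ ∫⁻ _ in T d, hi ∂vol := by
                refine setLIntegral_mono measurable_const fun o ho => ?_
                rw [hTd] at ho
                exact ho.2
            _ = hi * vol (T d) := setLIntegral_const _ _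
            _ ≤ hi * vol A := by
                gcongr
                rw [hTd]
                exact Set.inter_subset_left
      _ = hi * F.card * vol A := by
          rw [Finset.sum_const, nsmul_eq_mul]
          ring
  · intro d hd
    simp [hTdef, hd]

/-- a global ceiling of the base measure is a ceiling for all densities -/
theorem k2a_den_le_of_map_le (h : K2aFr vol μ b) {c : ℝ≥0∞} (hc : μ.map b ≤ c • vol) (ℓ : Ω → D) (d : D) : ∀ᵐ o ∂vol, k2aDen vol μ b ℓ d o ≤ c := by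
  have := h.sf
  refine ae_le_of_forall_setLIntegral_le_of_sigmaFinite (g := fun _ => c) (k2a_den_meas _ _ _ _ _) fun s hs _ => ?_
  rw [← withDensity_apply _ hs, k2a_part_withDensity h, setLIntegral_const]
  have h1 : k2aPart μ b ℓ d ≤ μ.map b := Measure.map_mono Measure.restrict_le_self h.bm
  calc k2aPart μ b ℓ d s ≤ μ.map b s := h1 s
    _ ≤ (c • vol) s := hc s
    _ = c * vol s := by simp

/-! ## 6. Leaf L-252-K2A-DEN-5 : coarsening, restriction to observed sets -/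

/-- the density of a coarser label is the sum over the fibre -/
theorem k2a_den_comp [Countable D] (h : K2aFr vol μ b) (hℓ : K2aLab ℓ) (φ : D → E) (e : E) :
    k2aDen vol μ b (φ ∘ ℓ) e =ᵐ[vol] fun o => ∑' d, (φ ⁻¹' {e}).indicator (fun d => k2aDen vol μ b ℓ d o) d := by
  classical
  have := h.sf
  have := h.fin
  set f : D → O → ℝ≥0∞ := fun d o => (φ ⁻¹' {e}).indicator (fun d => k2aDen vol μ b ℓ d o) d with hf
  have hfm : ∀ d, Measurable (f d) := by
    intro d
    by_cases hd : d ∈ φ ⁻¹' {e}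
    · have : f d = k2aDen vol μ b ℓ d := by
        funext o; simp only [hf, Set.indicator_of_mem hd]
      rw [this]; exact k2a_den_meas _ _ _ _ _
    · have : f d = fun _ => 0 := by
        funext o; simp only [hf, Set.indicator_of_notMem hd]
      rw [this]; exact measurable_const
  have hsum : (fun o => ∑' d, f d o) = ∑' d, f d := by
    funext o
    rw [tsum_apply (Pi.summable.2 fun _ => ENNReal.summable)]
  have hm : Measurable (fun o => ∑' d, f d o) := Measurable.ennreal_tsum hfm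
  have key : vol.withDensity (fun o => ∑' d, f d o) = k2aPart μ b (φ ∘ ℓ) e := by
    rw [hsum, withDensity_tsum hfm]
    ext A hA
    rw [Measure.sum_apply _ hA]
    unfold k2aPart
    rw [Measure.map_apply h.bm hA, Measure.restrict_apply (h.bm hA)]
    have hU : b ⁻¹' A ∩ (φ ∘ ℓ) ⁻¹' {e} = ⋃ d, (if φ d = e then b ⁻¹' A ∩ ℓ ⁻¹' {d} else ∅) := by
      ext x
      simp only [Set.mem_inter_iff, Set.mem_preimage, Function.comp_apply, Set.mem_singleton_iff, Set.mem_iUnion]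
      constructor
      · rintro ⟨hx, hx'⟩
        exact ⟨ℓ x, by rw [if_pos hx']; exact ⟨hx, rfl⟩⟩
      · rintro ⟨d, hd⟩
        by_cases hde : φ d = e
        · rw [if_pos hde] at hd
          obtain ⟨h1, h2⟩ := hd
          have h2' : ℓ x = d := h2
          exact ⟨h1, by rw [h2']; exact hde⟩
        · rw [if_neg hde] at hd; exact hd.elim
    rw [hU, measure_iUnion]
    · refine tsum_congr fun d => ?_
      by_cases hde : φ d = e
      · have hd : d ∈ φ ⁻¹' {e} := hde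
        have : f d = k2aDen vol μ b ℓ d := by
          funext o; simp only [hf, Set.indicator_of_mem hd]
        rw [this, k2a_part_withDensity h, if_pos hde]
        unfold k2aPart
        rw [Measure.map_apply h.bm hA, Measure.restrict_apply (h.bm hA)]
      · have hd : d ∉ φ ⁻¹' {e} := hde
        have : f d = 0 := by
          funext o; simp only [hf, Set.indicator_of_notMem hd, Pi.zero_apply]
        rw [this, withDensity_zero, if_neg hde]; simp
    · intro d d' hdd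
      by_cases h1 : φ d = e <;> by_cases h2 : φ d' = e <;> simp only [h1, h2, if_true, if_false, Function.onFun] <;>
        try simp
      rw [Set.disjoint_left]
      rintro x ⟨-, hx⟩ ⟨-, hx'⟩
      exact hdd ((show ℓ x = d from hx).symm.trans hx')
    · intro d
      by_cases h1 : φ d = e
      · rw [if_pos h1]; exact (h.bm hA).inter (hℓ d)
      · rw [if_neg h1]; exact MeasurableSet.empty
  unfold k2aDen
  rw [← key]
  exact Measure.rnDeriv_withDensity _ hm

/-- restriction to a set which is determined by the observation -/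
theorem k2a_den_restrict_obs (h : K2aFr vol μ b) (hℓ : K2aLab ℓ) {T : D → Set O} (hT : ∀ d, MeasurableSet (T d)) (d : D) :
    k2aDen vol (μ.restrict {x | b x ∈ T (ℓ x)}) b ℓ d =ᵐ[vol] (T d).indicator (k2aDen vol μ b ℓ d) := by
  have := h.sf
  have := h.fin
  have e1 : k2aPart (μ.restrict {x | b x ∈ T (ℓ x)}) b ℓ d = (k2aPart μ b ℓ d).restrict (T d) := by
    unfold k2aPart
    rw [Measure.restrict_map h.bm (hT d), Measure.restrict_restrict (hℓ d), Measure.restrict_restrict (h.bm (hT d))]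
    congr 2
    ext x
    simp only [Set.mem_inter_iff, Set.mem_preimage, Set.mem_singleton_iff, Set.mem_setOf_eq]
    constructor
    · rintro ⟨rfl, hx⟩; exact ⟨hx, rfl⟩
    · rintro ⟨hx, rfl⟩; exact ⟨rfl, hx⟩
  have : IsFiniteMeasure (k2aPart μ b ℓ d) := by unfold k2aPart; infer_instance
  unfold k2aDen
  rw [e1]
  exact Measure.rnDeriv_restrict _ _ (hT d)

/-! ## 7. Leaf L-252-K2A-DEN-6 : angular caps under coarsening, one scale  (02 l.352-388) -/

theorem k2a_tsum_fibre (φ : D → E) (e : E) (v : D') (g : D → ℝ≥0∞) :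
    ∑' p : D × D', (Prod.map φ id ⁻¹' {(e, v)}).indicator (fun p : D × D' => g p.1) p = ∑' d, (φ ⁻¹' {e}).indicator g d := by
  classical
  rw [ENNReal.tsum_prod' (f := fun p : D × D' => (Prod.map φ id ⁻¹' {(e, v)}).indicator (fun p : D × D' => g p.1) p)]
  refine tsum_congr fun d => ?_
  rw [tsum_eq_single v]
  · by_cases hd : φ d = e
    · rw [Set.indicator_of_mem (show (d, v) ∈ Prod.map φ id ⁻¹' {(e, v)} by simp [hd]),
        Set.indicator_of_mem (show d ∈ φ ⁻¹' {e} from hd)]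
    · rw [Set.indicator_of_notMem (show (d, v) ∉ Prod.map φ id ⁻¹' {(e, v)} by simp [hd]),
        Set.indicator_of_notMem (show d ∉ φ ⁻¹' {e} from hd)]
  · intro v' hv'
    exact Set.indicator_of_notMem (by simp [hv']) _

/-- `ℓ` = fine hidden bin, `β` = angular bin, `φ ∘ ℓ` = coarse hidden bin.   `A` = angular cap, `nL` = typical fine density, `K` = slack of the lower bound.
PROOF.  `S` = complement of the two exceptional sets `= {x | b x ∈ T (ℓ x, β x)}`, `T (d,v) = {o | den (d,v) o ≤ A nL ∧ nL ≤ K den d o}`.   By `k2a_den_restrict_obs` the good density of `(d,v)` is `≤ A K den d`;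
sum over the fibre of `φ` (`k2a_den_comp` for `Prod.map φ id` and for `φ`): the good density of `(e,v)` is `≤ A K den e`;   `k2a_omit` for the label `(φ ∘ ℓ, β)`. -/
theorem k2a_angular [Countable D] [Countable D'] [Countable E] (h : K2aFr vol μ b) (hℓ : K2aLab ℓ) {β : Ω → D'} (hβ : K2aLab β) (φ : D → E) (A nL K : ℝ≥0∞) :
    μ {x | 2 * (A * K) * k2aDn vol μ b (φ ∘ ℓ) x < k2aDn vol μ b (k2aPair (φ ∘ ℓ) β) x}
      ≤ 2 * (μ {x | A * nL < k2aDn vol μ b (k2aPair ℓ β) x} + μ {x | K * k2aDn vol μ b ℓ x < nL}) := by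
  classical
  set T : D × D' → Set O := fun p => {o | k2aDen vol μ b (k2aPair ℓ β) p o ≤ A * nL ∧ nL ≤ K * k2aDen vol μ b ℓ p.1 o} with hTdef
  have hT : ∀ p, MeasurableSet (T p) := by
    intro p
    exact (measurableSet_le (k2a_den_meas _ _ _ _ _) measurable_const).inter
      (measurableSet_le measurable_const ((k2a_den_meas _ _ _ _ _).const_mul _))
  have hlab : K2aLab (k2aPair ℓ β) := k2a_lab_pair hℓ hβ
  have hlab' : K2aLab (k2aPair (φ ∘ ℓ) β) := k2a_lab_pair (k2a_lab_comp hℓ φ) hβ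
  set S : Set Ω := {x | b x ∈ T (k2aPair ℓ β x)} with hSdef
  have hS : MeasurableSet S := k2a_obs_meas h hlab hT
  have hSc : Sᶜ ⊆ {x | A * nL < k2aDn vol μ b (k2aPair ℓ β) x} ∪ {x | K * k2aDn vol μ b ℓ x < nL} := by
    intro x hx
    by_contra hcon
    simp only [Set.mem_union, Set.mem_setOf_eq, not_or, not_lt] at hcon
    exact hx ⟨hcon.1, hcon.2⟩
  -- the good density of a fine entry
  have hfine : ∀ p : D × D', ∀ᵐ o ∂vol, k2aDen vol (μ.restrict S) b (k2aPair ℓ β) p o ≤ A * K * k2aDen vol μ b ℓ p.1 o := by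
    intro p
    filter_upwards [k2a_den_restrict_obs h hlab hT p] with o ho
    rw [ho]
    by_cases hoT : o ∈ T p
    · rw [Set.indicator_of_mem hoT]
      calc k2aDen vol μ b (k2aPair ℓ β) p o ≤ A * nL := hoT.1
        _ ≤ A * (K * k2aDen vol μ b ℓ p.1 o) := by gcongr; exact hoT.2
        _ = _ := by ring
    · rw [Set.indicator_of_notMem hoT]; exact zero_le
  have hfine' : ∀ᵐ o ∂vol, ∀ p : D × D', k2aDen vol (μ.restrict S) b (k2aPair ℓ β) p o ≤ A * K * k2aDen vol μ b ℓ p.1 o :=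
    ae_all_iff.2 hfine
  -- the good density of a coarse entry
  have hcoarse : ∀ q : E × D', ∀ᵐ o ∂vol,
      k2aDen vol (μ.restrict S) b (k2aPair (φ ∘ ℓ) β) q o ≤ A * K * k2aDen vol μ b (φ ∘ ℓ) q.1 o := by
    rintro ⟨e, v⟩
    have e1 := k2a_den_comp (k2a_fr_restrict h S) hlab (Prod.map φ id) (e, v)
    have e2 := k2a_den_comp h hℓ φ e
    filter_upwards [e1, e2, hfine'] with o h1 h2 h3
    have h1' : k2aDen vol (μ.restrict S) b (k2aPair (φ ∘ ℓ) β) (e, v) o
        = ∑' p, (Prod.map φ id ⁻¹' {(e, v)}).indicator (fun p => k2aDen vol (μ.restrict S) b (k2aPair ℓ β) p o) p := h1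
    rw [h1', h2, ← k2a_tsum_fibre φ e v, ← ENNReal.tsum_mul_left]
    refine ENNReal.tsum_le_tsum fun p => ?_
    by_cases hp : p ∈ Prod.map φ id ⁻¹' {(e, v)}
    · rw [Set.indicator_of_mem hp, Set.indicator_of_mem hp]; exact h3 p
    · rw [Set.indicator_of_notMem hp]; exact zero_le
  have hae : ∀ᵐ x ∂μ, k2aDn vol (μ.restrict S) b (k2aPair (φ ∘ ℓ) β) x ≤ A * K * k2aDn vol μ b (φ ∘ ℓ) x :=
    k2a_ae_of_ae (ℓ := k2aPair (φ ∘ ℓ) β) h hcoarse
  calc μ {x | 2 * (A * K) * k2aDn vol μ b (φ ∘ ℓ) x < k2aDn vol μ b (k2aPair (φ ∘ ℓ) β) x}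
      ≤ μ {x | 2 * k2aDn vol (μ.restrict S) b (k2aPair (φ ∘ ℓ) β) x < k2aDn vol μ b (k2aPair (φ ∘ ℓ) β) x} := by
        refine measure_mono_ae ?_
        filter_upwards [hae] with x hx hx'
        refine lt_of_le_of_lt ?_ hx'
        calc 2 * k2aDn vol (μ.restrict S) b (k2aPair (φ ∘ ℓ) β) x ≤ 2 * (A * K * k2aDn vol μ b (φ ∘ ℓ) x) := by gcongr
          _ = _ := by ring
    _ ≤ 2 * μ Sᶜ := k2a_omit h hlab' hS
    _ ≤ 2 * (μ {x | A * nL < k2aDn vol μ b (k2aPair ℓ β) x} + μ {x | K * k2aDn vol μ b ℓ x < nL}) := by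
        gcongr
        exact (measure_mono hSc).trans (measure_union_le _ _)

end

end Claimed.Agent.R252
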