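import Claimed.Agent.R252.Base.Pb
import Claimed.Agent.R252.S2a.DenContract

/-!
# ROW 252 (S0492), unit S2aA (post BP-252-S2aA, sub-architect helper129), file 2: DENSITY OPERATIONS AND HOMOGENISATION AT ONE SCALE, for `KbPb`.      CONTRACT file: the `sorry`s are the leaves L-252-K2A-PB-*.

Paper: 02-framework.tex l.147-388 in the MEASURABLE model (`Base/Pb.lean`, rule 7): selections are arbitrary measurable sets, so `a01:flattening` is not needed.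
Everything here is ONE scale with explicit slacks.   The sequence statements (typical densities, profile `f(r,u)`, cap class, slow grids) are in `S2a/SeqContract.lean`.

* section 1 : `KbPb.den/dn` are `k2aDen/k2aDn` (rfl);  the frame `k2a_fr` (absolute continuity of the base law), the polynomial ceiling `k2a_map_le`.
* section 2 : selections (`WF`, `Ntv`, `Tmp`, `mu`).
* section 3 : `a01:density-operations` summed over the worlds.
* section 4 : dyadic bins: nesting and counting.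
* section 5 : monotonicity and Lipschitz bounds of the densities of `(p_r, [V]_u)`, floors and ceilings.
* section 6 : the type pigeonhole = one-scale core of `a01:homogenization`.
* section 7 : `a01:angular-coarsening` at one scale.
-/

set_option autoImplicit false

namespace Claimed.Agent.R252

open MeasureTheory
open scoped ENNReal BigOperators

noncomputable section

variable {v : KbVer} {P : KbPb v} {D D' : Type}

/-! ## 1. Leaf L-252-K2A-PB-1 : the frame.   Leaf L-252-K2A-PB-2 : the ceiling -/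

theorem k2a_den_eq (ℓ : P.Lab D) (γ : P.W) (d : D) (o : ℝ × KbB v) : P.den ℓ γ d o = k2aDen volume (P.mu γ) (P.bs γ) (ℓ γ) d o := rfl

theorem k2a_dn_eq (ℓ : P.Lab D) (γ : P.W) (x : P.Lam × ℝ) : P.dn ℓ γ x = k2aDn volume (P.mu γ) (P.bs γ) (ℓ γ) x := rfl

theorem k2a_lpair_eq (ℓ : P.Lab D) (ℓ' : P.Lab D') (γ : P.W) : P.lpair ℓ ℓ' γ = k2aPair (ℓ γ) (ℓ' γ) := rfl

/-- the base map in coefficient coordinates -/
def k2aG (p : KbTj v × ℝ) : ℝ × KbB v := (p.2, kbY p.1 p.2)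

theorem k2a_G_meas : Measurable (k2aG (v := v)) := by
  unfold k2aG kbY
  fun_prop

/-- **the shear computation** (Tonelli in `t`, then in `(V, w)`, translation invariance in `y₀`). -/
theorem k2a_shear {A : Set (ℝ × KbB v)} (hA : MeasurableSet A) {B₂ : Set (KbB v × (Fin v.e → ℝ))} (hB : MeasurableSet B₂) :
    (volume : Measure (KbTj v × ℝ)) (k2aG ⁻¹' A ∩ {p | p.1.2 ∈ B₂}) = volume B₂ * volume A := by
  have hs : MeasurableSet (k2aG ⁻¹' A ∩ {p : KbTj v × ℝ | p.1.2 ∈ B₂}) :=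
    (k2a_G_meas hA).inter ((measurable_snd.comp measurable_fst) hB)
  rw [Measure.volume_eq_prod, Measure.prod_apply_symm hs]
  have h1 : ∀ t : ℝ, (volume : Measure (KbTj v)) ((fun c => (c, t)) ⁻¹' (k2aG ⁻¹' A ∩ {p : KbTj v × ℝ | p.1.2 ∈ B₂}))
      = volume B₂ * volume (Prod.mk t ⁻¹' A) := by
    intro t
    have hst : MeasurableSet ((fun c : KbTj v => (c, t)) ⁻¹' (k2aG ⁻¹' A ∩ {p : KbTj v × ℝ | p.1.2 ∈ B₂})) :=
      measurable_prodMk_right hs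
    rw [Measure.volume_eq_prod, Measure.prod_apply_symm hst]
    have h2 : ∀ c₂ : KbB v × (Fin v.e → ℝ), (volume : Measure (KbB v)) ((fun y => (y, c₂)) ⁻¹'
        ((fun c : KbTj v => (c, t)) ⁻¹' (k2aG ⁻¹' A ∩ {p : KbTj v × ℝ | p.1.2 ∈ B₂})))
        = B₂.indicator (fun _ => volume (Prod.mk t ⁻¹' A)) c₂ := by
      intro c₂
      by_cases hc : c₂ ∈ B₂
      · rw [Set.indicator_of_mem hc]
        have e : ((fun y : KbB v => (y, c₂)) ⁻¹'
            ((fun c : KbTj v => (c, t)) ⁻¹' (k2aG ⁻¹' A ∩ {p : KbTj v × ℝ | p.1.2 ∈ B₂})))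
            = (fun y => y + t • c₂.1) ⁻¹' (Prod.mk t ⁻¹' A) := by
          ext y
          simp [k2aG, kbY, hc]
        rw [e, measure_preimage_add_right]
      · rw [Set.indicator_of_notMem hc]
        have e : ((fun y : KbB v => (y, c₂)) ⁻¹'
            ((fun c : KbTj v => (c, t)) ⁻¹' (k2aG ⁻¹' A ∩ {p : KbTj v × ℝ | p.1.2 ∈ B₂}))) = ∅ := by
          ext y
          simp [hc]
        rw [e, measure_empty]
    simp_rw [h2]
    rw [lintegral_indicator hB, setLIntegral_const, mul_comm]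
  simp_rw [h1]
  rw [lintegral_const_mul _ (measurable_measure_prodMk_left hA), Measure.volume_eq_prod (α := ℝ), Measure.prod_apply hA]

theorem k2a_bs_meas (hP : P.WF) (γ : P.W) : Measurable (P.bs γ) :=
  k2a_G_meas.comp ((hP.co_meas γ).prodMap measurable_id)

theorem k2a_hw_meas (hP : P.WF) (γ : P.W) : Measurable (P.hw γ) := by
  have h := hP.co_meas γ
  unfold KbPb.hw kbW
  fun_prop

theorem k2a_tm_univ : (KbPb.tm : Measure ℝ) Set.univ = 1 := by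
  simp [KbPb.tm]

theorem k2a_mu_univ_le (hP : P.WF) (γ : P.W) : P.mu γ Set.univ ≤ 1 := by
  have := hP.prob γ
  have : SFinite (KbPb.tm : Measure ℝ) := by unfold KbPb.tm; infer_instance
  calc P.mu γ Set.univ ≤ ((P.nu γ).prod KbPb.tm) Set.univ := Measure.restrict_le_self _
    _ = 1 := by rw [← Set.univ_prod_univ, Measure.prod_prod, k2a_tm_univ, measure_univ, one_mul]

theorem k2a_tot_le (hP : P.WF) : P.tot ≤ 1 := by
  rw [← hP.om_sum]
  refine Finset.sum_le_sum fun γ _ => ?_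
  calc P.om γ * P.mu γ Set.univ ≤ P.om γ * 1 := mul_le_mul_right (k2a_mu_univ_le hP γ) _
    _ = P.om γ := mul_one _

/-- the base law is dominated by the image of `ρ × dt`, `ρ` = the law of the coefficients -/
theorem k2a_map_bs_le (hP : P.WF) (γ : P.W) {A : Set (ℝ × KbB v)} (hA : MeasurableSet A) :
    (P.mu γ).map (P.bs γ) A ≤ (((P.nu γ).map (P.co γ)).prod volume) (k2aG ⁻¹' A) := by
  have := hP.prob γ
  have h1 : ((P.nu γ).map (P.co γ)).prod (volume : Measure ℝ) = ((P.nu γ).prod volume).map (Prod.map (P.co γ) id) := by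
    conv_lhs => rw [← Measure.map_id (μ := (volume : Measure ℝ))]
    exact Measure.map_prod_map _ _ (hP.co_meas γ) measurable_id
  rw [Measure.map_apply (k2a_bs_meas hP γ) hA, h1, Measure.map_apply ((hP.co_meas γ).prodMap measurable_id) (k2a_G_meas hA)]
  calc P.mu γ (P.bs γ ⁻¹' A) ≤ ((P.nu γ).prod KbPb.tm) (P.bs γ ⁻¹' A) := Measure.restrict_le_self _
    _ ≤ ((P.nu γ).prod volume) (P.bs γ ⁻¹' A) := Measure.prod_mono le_rfl Measure.restrict_le_self _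

/-- PB-1.  **the base law is absolutely continuous.**   `(c, t) ↦ (t, c.1 + t • c.2.1)` is quasi measure preserving `volume.prod volume → volume`:  the shear `(y₀, V, w, t) ↦ (y₀ + t V, V, w, t)` preserves the volume
(`MeasurePreserving.skew_product` + translation invariance, or Tonelli by hand), projections are quasi measure preserving (`Measure.quasiMeasurePreserving_fst/snd`);   `(nu γ).map (co γ) ≪ volume` is `hP.ac`. -/
theorem k2a_fr (hP : P.WF) (γ : P.W) : K2aFr volume (P.mu γ) (P.bs γ) where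
  sf := inferInstance
  fin := ⟨(k2a_mu_univ_le hP γ).trans_lt ENNReal.one_lt_top⟩
  bm := k2a_bs_meas hP γ
  ac := by
    refine Measure.AbsolutelyContinuous.mk fun A hA h0 => ?_
    refine le_antisymm ((k2a_map_bs_le hP γ hA).trans (le_of_eq ?_)) zero_le
    refine ((hP.ac γ).prod (Measure.AbsolutelyContinuous.refl _)) ?_
    have := k2a_shear hA (MeasurableSet.univ (α := KbB v × (Fin v.e → ℝ)))
    rw [h0, mul_zero] at this
    simpa [Measure.volume_eq_prod] using this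

/-- PB-2.  **polynomial ceiling.**   `ρ = (nu γ).map (co γ) ≤ Q vol` is carried by `{‖c‖ ≤ Q}` (`co_le`, `Sp_full`).   For measurable `A`: Tonelli in `t`, then in `(V, w)` (a box of volume `(2Q)^{j+e}`), translation invariance in `y₀`. -/
theorem k2a_map_le (hP : P.WF) {Q : ℝ} (hQ : P.Tmp Q) (γ : P.W) : (P.mu γ).map (P.bs γ) ≤ ENNReal.ofReal (Q * (2 * Q) ^ (v.j + v.e)) • volume := by
  have hQ0 : 0 ≤ Q := (Nat.cast_nonneg _).trans hQ.card
  set B₂ : Set (KbB v × (Fin v.e → ℝ)) := Metric.closedBall 0 Q with hB₂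
  have hB₂m : MeasurableSet B₂ := Metric.isClosed_closedBall.measurableSet
  have hvol : volume B₂ = ENNReal.ofReal ((2 * Q) ^ (v.j + v.e)) := by
    have e : B₂ = Metric.closedBall (0 : KbB v) Q ×ˢ Metric.closedBall (0 : Fin v.e → ℝ) Q :=
      (closedBall_prod_same (0 : KbB v) (0 : Fin v.e → ℝ) Q).symm
    rw [e, Measure.volume_eq_prod, Measure.prod_prod, Real.volume_pi_closedBall _ hQ0, Real.volume_pi_closedBall _ hQ0,
      ← ENNReal.ofReal_mul (by positivity), Fintype.card_fin, Fintype.card_fin, pow_add]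
  set Bq : Set (KbTj v) := {c | c.2 ∈ B₂} with hBq
  have hBqm : MeasurableSet Bq := measurable_snd hB₂m
  set ρ := (P.nu γ).map (P.co γ) with hρ
  have hρB : ρ.restrict Bq = ρ := by
    refine Measure.restrict_eq_self_of_ae_mem ?_
    rw [hρ]
    refine (ae_map_iff (hP.co_meas γ).aemeasurable hBqm).2 ?_
    have : ∀ᵐ l ∂P.nu γ, l ∈ P.Sp γ := by
      rw [ae_iff]
      exact hP.Sp_full γ
    filter_upwards [this] with l hl
    have h1 := hQ.co_le γ l hl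
    have h2 : ‖(P.co γ l).2‖ ≤ ‖P.co γ l‖ := norm_snd_le _
    simpa [hBq, hB₂] using h2.trans h1
  have hρle : ρ ≤ ENNReal.ofReal Q • (volume : Measure (KbTj v)).restrict Bq := by
    rw [← hρB, ← Measure.restrict_smul]
    exact Measure.restrict_mono le_rfl (hQ.dens γ)
  refine Measure.le_iff.2 fun A hA => ?_
  calc (P.mu γ).map (P.bs γ) A ≤ (ρ.prod volume) (k2aG ⁻¹' A) := k2a_map_bs_le hP γ hA
    _ ≤ ((ENNReal.ofReal Q • (volume : Measure (KbTj v)).restrict Bq).prod volume) (k2aG ⁻¹' A) :=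
        Measure.prod_mono hρle le_rfl _
    _ = ENNReal.ofReal Q * (volume : Measure (KbTj v × ℝ)) (k2aG ⁻¹' A ∩ {p | p.1.2 ∈ B₂}) := by
        rw [Measure.prod_smul_left, Measure.smul_apply, smul_eq_mul]
        congr 1
        conv_lhs => rw [← Measure.restrict_univ (μ := (volume : Measure ℝ)), Measure.prod_restrict]
        rw [Measure.restrict_apply (k2a_G_meas hA), Measure.volume_eq_prod]
        congr 2
        ext p
        simp [hBq]
    _ = (ENNReal.ofReal (Q * (2 * Q) ^ (v.j + v.e)) • volume) A := by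
        rw [k2a_shear hA hB₂m, hvol, Measure.smul_apply, smul_eq_mul, ← mul_assoc, ← ENNReal.ofReal_mul hQ0]

theorem k2a_above_zero [Countable D] (hP : P.WF) {Q : ℝ} (hQ : P.Tmp Q) (ℓ : P.Lab D) {hi : ℝ} (h : Q * (2 * Q) ^ (v.j + v.e) ≤ hi) : P.mass (P.above ℓ hi) = 0 := by
  refine Finset.sum_eq_zero fun γ _ => ?_
  have h1 : ∀ᵐ x ∂P.mu γ, k2aDen volume (P.mu γ) (P.bs γ) (ℓ γ) (ℓ γ x) (P.bs γ x) ≤ ENNReal.ofReal (Q * (2 * Q) ^ (v.j + v.e)) :=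
    k2a_ae_of_ae (ℓ := ℓ γ) (k2a_fr hP γ) (p := fun d o => k2aDen volume (P.mu γ) (P.bs γ) (ℓ γ) d o ≤ ENNReal.ofReal (Q * (2 * Q) ^ (v.j + v.e)))
      fun d => k2a_den_le_of_map_le (k2a_fr hP γ) (k2a_map_le hP hQ γ) (ℓ γ) d
  have h2 : P.mu γ (P.above ℓ hi γ) = 0 := by
    refine measure_eq_zero_iff_ae_notMem.2 ?_
    filter_upwards [h1] with x hx
    exact not_lt.2 (hx.trans (ENNReal.ofReal_le_ofReal h))
  rw [h2, mul_zero]

theorem k2a_hid_meas (hP : P.WF) (a : ℝ) : P.LabMeas (P.hid a) := by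
  intro γ d
  have h : Measurable (P.hid a γ) := by
    have := k2a_hw_meas hP γ
    unfold KbPb.hid kbBin
    fun_prop
  exact h (measurableSet_singleton d)

theorem k2a_vel_meas (hP : P.WF) (b : ℝ) : P.LabMeas (P.vel b) := by
  intro γ d
  have h : Measurable (P.vel b γ) := by
    have := hP.co_meas γ
    unfold KbPb.vel kbBin kbV
    fun_prop
  exact h (measurableSet_singleton d)

theorem k2a_hv_meas (hP : P.WF) (a b : ℝ) : P.LabMeas (P.hv a b) := fun γ =>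
  k2a_lab_pair (k2a_hid_meas hP a γ) (k2a_vel_meas hP b γ)

theorem k2a_dn_measurable [Countable D] (hP : P.WF) {ℓ : P.Lab D} (hℓ : P.LabMeas ℓ) (γ : P.W) : Measurable (P.dn ℓ γ) :=
  k2a_dn_meas (k2a_fr hP γ) (hℓ γ) (P.mu γ)

/-! ## 2. Leaf L-252-K2A-PB-3 : selections -/

theorem k2a_sel_mu {S : P.W → Set (P.Lam × ℝ)} (hS : ∀ γ, MeasurableSet (S γ)) (γ : P.W) : (P.sel S).mu γ = (P.mu γ).restrict (S γ) := by
  change ((P.nu γ).prod KbPb.tm).restrict (P.Ev γ ∩ S γ) = (((P.nu γ).prod KbPb.tm).restrict (P.Ev γ)).restrict (S γ)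
  rw [Measure.restrict_restrict (hS γ), Set.inter_comm]

theorem k2a_sel_mass {S : P.W → Set (P.Lam × ℝ)} (hS : ∀ γ, MeasurableSet (S γ)) (A : P.W → Set (P.Lam × ℝ)) :
    (P.sel S).mass A = P.mass fun γ => A γ ∩ S γ := by
  have key : ∀ γ : P.W, (P.sel S).mu γ (A γ) = P.mu γ (A γ ∩ S γ) := fun γ =>
    (congrArg (fun m : Measure (P.Lam × ℝ) => m (A γ)) (k2a_sel_mu hS γ)).trans (Measure.restrict_apply' (hS γ))
  exact Finset.sum_congr rfl fun γ _ => congrArg (P.om γ * ·) (key γ)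

theorem k2a_sel_tot {S : P.W → Set (P.Lam × ℝ)} (hS : ∀ γ, MeasurableSet (S γ)) : (P.sel S).tot = P.mass S := by
  exact (k2a_sel_mass hS (fun _ => Set.univ)).trans (by simp only [Set.univ_inter])

theorem k2a_sel_wf (hP : P.WF) {S : P.W → Set (P.Lam × ℝ)} (hS : ∀ γ, MeasurableSet (S γ)) : (P.sel S).WF where
  om_sum := hP.om_sum
  prob := hP.prob
  co_meas := hP.co_meas
  Sp_meas := hP.Sp_meas
  Sp_full := hP.Sp_full
  Ev_meas := fun γ => (hP.Ev_meas γ).inter (hS γ)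
  Ev_sub := fun γ => Set.inter_subset_left.trans (hP.Ev_sub γ)
  B_pos := hP.B_pos
  Pst_adm := hP.Pst_adm
  v1 := hP.v1
  ac := hP.ac

theorem k2a_sel_ntv (hP : P.WF) {K K' : ℝ} (hK : P.Ntv K) (hKK : K ≤ K') {S : P.W → Set (P.Lam × ℝ)} (hS : ∀ γ, MeasurableSet (S γ))
    (hm : 1 ≤ ENNReal.ofReal K' * P.mass S) : (P.sel S).Ntv K' where
  base := fun γ l hl t ht => (hK.base γ l hl t ht).trans hKK
  sig := fun γ l hl t ht => (hK.sig γ l hl t ht).trans hKK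
  dw := fun γ l hl t ht => (hK.dw γ l hl t ht).trans (mul_le_mul_of_nonneg_right hKK (hP.B_pos γ).le)
  dw_low := fun γ x hx => (hK.dw_low γ x hx.1).trans (mul_le_mul_of_nonneg_right hKK (abs_nonneg _))
  dww := fun γ t y w => (hK.dww γ t y w).trans (mul_le_mul_of_nonneg_right hKK (sq_nonneg _))
  mass := by rw [k2a_sel_tot hS]; exact hm

theorem k2a_sel_tmp {Q : ℝ} (hQ : P.Tmp Q) (S : P.W → Set (P.Lam × ℝ)) : (P.sel S).Tmp Q where
  card := hQ.card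
  B_le := hQ.B_le
  co_le := hQ.co_le
  dens := hQ.dens

theorem k2a_mass_mono {A A' : P.W → Set (P.Lam × ℝ)} (h : ∀ γ, A γ ⊆ A' γ) : P.mass A ≤ P.mass A' :=
  Finset.sum_le_sum fun γ _ => mul_le_mul_right (measure_mono (h γ)) _

theorem k2a_mass_union (A A' : P.W → Set (P.Lam × ℝ)) : P.mass (fun γ => A γ ∪ A' γ) ≤ P.mass A + P.mass A' := by
  unfold KbPb.mass
  rw [← Finset.sum_add_distrib]
  refine Finset.sum_le_sum fun γ _ => ?_
  rw [← mul_add]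
  exact mul_le_mul_right (measure_union_le _ _) _

/-- sets which agree up to null sets in every world -/
theorem k2a_mass_mono_ae {A A' : P.W → Set (P.Lam × ℝ)} (h : ∀ γ, ∀ᵐ x ∂P.mu γ, x ∈ A γ → x ∈ A' γ) : P.mass A ≤ P.mass A' :=
  Finset.sum_le_sum fun γ _ => mul_le_mul_right (measure_mono_ae (h γ)) _

/-! ## 3. Leaf L-252-K2A-PB-4 : `a01:density-operations`, summed with the world weights -/

section ops

variable [Countable D] [Countable D'] {ℓ : P.Lab D} {ℓ' : P.Lab D'} {S : P.W → Set (P.Lam × ℝ)}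

theorem k2a_sel_omit_aux {Ω O : Type} [MeasurableSpace Ω] [MeasurableSpace O] {vol : Measure O} {μ μ' : Measure Ω} {b : Ω → O} {l : Ω → D}
    (h : K2aFr vol μ b) (hl : K2aLab l) {T : Set Ω} (hT : MeasurableSet T) (e : μ' = μ.restrict T) :
    μ {x | 2 * k2aDn vol μ' b l x < k2aDn vol μ b l x} ≤ 2 * μ Tᶜ := by
  subst e
  exact k2a_omit h hl hT

theorem k2a_sel_mu_le (hS : ∀ γ, MeasurableSet (S γ)) (γ : P.W) : (P.sel S).mu γ ≤ P.mu γ :=
  (k2a_sel_mu hS γ).le.trans Measure.restrict_le_self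

theorem k2a_sel_mass_le (hS : ∀ γ, MeasurableSet (S γ)) (A : P.W → Set (P.Lam × ℝ)) : (P.sel S).mass A ≤ P.mass A := by
  rw [k2a_sel_mass hS A]
  exact k2a_mass_mono fun γ => Set.inter_subset_left

theorem k2a_mass_le_of_forall {A : P.W → Set (P.Lam × ℝ)} {c : ℝ≥0∞} (hP : P.WF) (h : ∀ γ, P.mu γ (A γ) ≤ c) : P.mass A ≤ c := by
  unfold KbPb.mass
  calc ∑ γ, P.om γ * P.mu γ (A γ) ≤ ∑ γ, P.om γ * c := Finset.sum_le_sum fun γ _ => by gcongr; exact h γ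
    _ = c := by rw [← Finset.sum_mul, hP.om_sum, one_mul]

theorem k2a_sel_dn_le (hP : P.WF) (hS : ∀ γ, MeasurableSet (S γ)) (ℓ : P.Lab D) (γ : P.W) : ∀ᵐ x ∂P.mu γ, (P.sel S).dn ℓ γ x ≤ P.dn ℓ γ x := by
  exact k2a_dn_mono (k2a_fr hP γ) (k2a_sel_mu_le hS γ) (ℓ γ)

/-- (2.4) -/
theorem k2a_sel_small (hP : P.WF) (hS : ∀ γ, MeasurableSet (S γ)) (hℓ : P.LabMeas ℓ) (ε : ℝ≥0∞) :
    (P.sel S).mass (fun γ => {x | (P.sel S).dn ℓ γ x < ε * P.dn ℓ γ x}) ≤ ε * P.tot := by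
  have key : ∀ γ : P.W, (P.sel S).mu γ {x | (P.sel S).dn ℓ γ x < ε * P.dn ℓ γ x} ≤ ε * P.mu γ Set.univ := by
    intro γ
    exact k2a_restrict_small (μ' := (P.sel S).mu γ) (k2a_fr hP γ) (k2a_fr (k2a_sel_wf hP hS) γ) (hℓ γ) ε
  calc (P.sel S).mass (fun γ => {x | (P.sel S).dn ℓ γ x < ε * P.dn ℓ γ x})
      = ∑ γ : P.W, P.om γ * (P.sel S).mu γ {x | (P.sel S).dn ℓ γ x < ε * P.dn ℓ γ x} := rfl
    _ ≤ ∑ γ : P.W, P.om γ * (ε * P.mu γ Set.univ) := Finset.sum_le_sum fun γ _ => by gcongr; exact key γ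
    _ = ε * P.tot := by
        unfold KbPb.tot KbPb.mass
        rw [Finset.mul_sum]
        exact Finset.sum_congr rfl fun γ _ => by ring

/-- refinement by a list of size `≤ n` depending on the old observation -/
theorem k2a_list_small (hP : P.WF) (hℓ : P.LabMeas ℓ) (hℓ' : P.LabMeas ℓ') (Lst : P.W → D → ℝ × KbB v → Finset D') (n : ℕ)
    (hcard : ∀ γ d o, (Lst γ d o).card ≤ n) (hmeas : ∀ γ d d', MeasurableSet {o | d' ∈ Lst γ d o})
    (hmem : ∀ γ, ∀ x ∈ P.Ev γ, ℓ' γ x ∈ Lst γ (ℓ γ x) (P.bs γ x)) (ε : ℝ≥0∞) :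
    P.mass (fun γ => {x | P.dn (P.lpair ℓ ℓ') γ x < ε * P.dn ℓ γ x}) ≤ ε * n * P.tot := by
  have key : ∀ γ : P.W, P.mu γ {x | P.dn (P.lpair ℓ ℓ') γ x < ε * P.dn ℓ γ x} ≤ ε * n * P.mu γ Set.univ := by
    intro γ
    exact k2a_refine_small (k2a_fr hP γ) (hℓ γ) (hℓ' γ) (Lst γ) n (hcard γ) (hmeas γ)
      (ae_restrict_of_forall_mem (hP.Ev_meas γ) (hmem γ)) ε
  calc P.mass (fun γ => {x | P.dn (P.lpair ℓ ℓ') γ x < ε * P.dn ℓ γ x})
      ≤ ∑ γ : P.W, P.om γ * (ε * n * P.mu γ Set.univ) := Finset.sum_le_sum fun γ _ => by gcongr; exact key γ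
    _ = ε * n * P.tot := by
        unfold KbPb.tot KbPb.mass
        rw [Finset.mul_sum]
        exact Finset.sum_congr rfl fun γ _ => by ring

theorem k2a_lpair_le (hP : P.WF) (ℓ : P.Lab D) (ℓ' : P.Lab D') (γ : P.W) : ∀ᵐ x ∂P.mu γ, P.dn (P.lpair ℓ ℓ') γ x ≤ P.dn ℓ γ x := by
  exact k2a_dn_pair_le (k2a_fr hP γ) (ℓ γ) (ℓ' γ)

/-- omitted-mass comparison -/
theorem k2a_sel_omit (hP : P.WF) (hS : ∀ γ, MeasurableSet (S γ)) (hℓ : P.LabMeas ℓ) :
    P.mass (fun γ => {x | 2 * (P.sel S).dn ℓ γ x < P.dn ℓ γ x}) ≤ 2 * P.mass fun γ => (S γ)ᶜ := by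
  have key : ∀ γ : P.W, P.mu γ {x | 2 * (P.sel S).dn ℓ γ x < P.dn ℓ γ x} ≤ 2 * P.mu γ (S γ)ᶜ := by
    intro γ
    exact k2a_sel_omit_aux (μ' := (P.sel S).mu γ) (k2a_fr hP γ) (hℓ γ) (hS γ) (k2a_sel_mu hS γ)
  calc P.mass (fun γ => {x | 2 * (P.sel S).dn ℓ γ x < P.dn ℓ γ x})
      ≤ ∑ γ : P.W, P.om γ * (2 * P.mu γ (S γ)ᶜ) := Finset.sum_le_sum fun γ _ => by gcongr; exact key γ
    _ = 2 * P.mass fun γ => (S γ)ᶜ := by
        unfold KbPb.mass
        rw [Finset.mul_sum]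
        exact Finset.sum_congr rfl fun γ _ => by ring

/-- ceilings persist under selection -/
theorem k2a_sel_above (hP : P.WF) (hS : ∀ γ, MeasurableSet (S γ)) (hℓ : P.LabMeas ℓ) (hi : ℝ) : (P.sel S).mass ((P.sel S).above ℓ hi) ≤ P.mass (P.above ℓ hi) := by
  refine (k2a_sel_mass_le hS _).trans (k2a_mass_mono_ae fun γ => ?_)
  filter_upwards [k2a_sel_dn_le hP hS ℓ γ] with x hx hx'
  have hx2 : (P.sel S).dn ℓ γ x ≤ P.dn ℓ γ x := hx
  exact lt_of_lt_of_le hx' hx2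

/-- floors persist under selection up to the factor `ε`, outside mass `ε` -/
theorem k2a_sel_below (hP : P.WF) (hS : ∀ γ, MeasurableSet (S γ)) (hℓ : P.LabMeas ℓ) {ε lo : ℝ} (hε : 0 ≤ ε) (hlo : 0 ≤ lo) :
    (P.sel S).mass ((P.sel S).below ℓ (ε * lo)) ≤ ENNReal.ofReal ε * P.tot + P.mass (P.below ℓ lo) := by
  have hsub : ∀ γ : P.W, (P.sel S).below ℓ (ε * lo) γ
      ⊆ {x | (P.sel S).dn ℓ γ x < ENNReal.ofReal ε * P.dn ℓ γ x} ∪ P.below ℓ lo γ := by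
    intro γ x hx
    by_cases h : P.dn ℓ γ x < ENNReal.ofReal lo
    · exact Or.inr h
    · left
      have hx' : (P.sel S).dn ℓ γ x < ENNReal.ofReal (ε * lo) := hx
      rw [ENNReal.ofReal_mul hε] at hx'
      exact lt_of_lt_of_le hx' (by gcongr; exact not_lt.1 h)
  calc (P.sel S).mass ((P.sel S).below ℓ (ε * lo))
      ≤ (P.sel S).mass (fun γ => {x | (P.sel S).dn ℓ γ x < ENNReal.ofReal ε * P.dn ℓ γ x} ∪ P.below ℓ lo γ) :=
        k2a_mass_mono (P := P.sel S) hsub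
    _ ≤ (P.sel S).mass (fun γ => {x | (P.sel S).dn ℓ γ x < ENNReal.ofReal ε * P.dn ℓ γ x}) + (P.sel S).mass (P.below ℓ lo) :=
        k2a_mass_union (P := P.sel S) _ _
    _ ≤ ENNReal.ofReal ε * P.tot + P.mass (P.below ℓ lo) :=
        add_le_add (k2a_sel_small hP hS hℓ _) (k2a_sel_mass_le hS _)

/-- a ceiling of the good restricted measure is a typical ceiling of the full measure -/
theorem k2a_above_of_sel (hP : P.WF) (hS : ∀ γ, MeasurableSet (S γ)) (hℓ : P.LabMeas ℓ) {hi : ℝ} (hhi : 0 ≤ hi) :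
    P.mass (P.above ℓ (2 * hi)) ≤ 3 * P.mass (fun γ => (S γ)ᶜ) + (P.sel S).mass ((P.sel S).above ℓ hi) := by
  have hsub : ∀ γ : P.W, P.above ℓ (2 * hi) γ
      ⊆ ({x | 2 * (P.sel S).dn ℓ γ x < P.dn ℓ γ x} ∪ (S γ)ᶜ) ∪ ((P.sel S).above ℓ hi γ ∩ S γ) := by
    intro γ x hx
    by_cases h : 2 * (P.sel S).dn ℓ γ x < P.dn ℓ γ x
    · exact Or.inl (Or.inl h)
    · by_cases hxS : x ∈ S γ
      · right
        refine ⟨?_, hxS⟩
        have hx' : ENNReal.ofReal (2 * hi) < P.dn ℓ γ x := hx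
        rw [ENNReal.ofReal_mul (by norm_num), ENNReal.ofReal_ofNat] at hx'
        have h2 : 2 * ENNReal.ofReal hi < 2 * (P.sel S).dn ℓ γ x := lt_of_lt_of_le hx' (not_lt.1 h)
        exact lt_of_mul_lt_mul_left' h2
      · exact Or.inl (Or.inr hxS)
  calc P.mass (P.above ℓ (2 * hi))
      ≤ P.mass (fun γ => ({x | 2 * (P.sel S).dn ℓ γ x < P.dn ℓ γ x} ∪ (S γ)ᶜ) ∪ ((P.sel S).above ℓ hi γ ∩ S γ)) := k2a_mass_mono hsub
    _ ≤ P.mass (fun γ => {x | 2 * (P.sel S).dn ℓ γ x < P.dn ℓ γ x} ∪ (S γ)ᶜ) + P.mass (fun γ => (P.sel S).above ℓ hi γ ∩ S γ) :=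
        k2a_mass_union _ _
    _ ≤ (P.mass (fun γ => {x | 2 * (P.sel S).dn ℓ γ x < P.dn ℓ γ x}) + P.mass (fun γ => (S γ)ᶜ)) + P.mass (fun γ => (P.sel S).above ℓ hi γ ∩ S γ) :=
        add_le_add (k2a_mass_union _ _) le_rfl
    _ ≤ (2 * P.mass (fun γ => (S γ)ᶜ) + P.mass (fun γ => (S γ)ᶜ)) + (P.sel S).mass ((P.sel S).above ℓ hi) := by
        exact add_le_add (add_le_add (k2a_sel_omit hP hS hℓ) le_rfl) (k2a_sel_mass hS ((P.sel S).above ℓ hi)).ge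
    _ = 3 * P.mass (fun γ => (S γ)ᶜ) + (P.sel S).mass ((P.sel S).above ℓ hi) := by ring

/-- integration of a ceiling over a base region and a finite set of entries -/
theorem k2a_ceiling_pb (hP : P.WF) (hℓ : P.LabMeas ℓ) (γ : P.W) (F : Finset D) {A : Set (ℝ × KbB v)} (hA : MeasurableSet A) (hi : ℝ≥0∞) :
    P.mu γ {x | ℓ γ x ∈ F ∧ P.bs γ x ∈ A ∧ P.dn ℓ γ x ≤ hi} ≤ hi * F.card * volume A := by
  exact k2a_ceiling (k2a_fr hP γ) (hℓ γ) F hA hi

/-- small densities carry small mass: `n` possible entries, base in `[0,1] × [-K,K]^j` -/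
theorem k2a_below_le (hP : P.WF) {K : ℝ} (hK : P.Ntv K) (hℓ : P.LabMeas ℓ) (F : P.W → Finset D) (n : ℕ) (hF : ∀ γ, (F γ).card ≤ n)
    (hmem : ∀ γ, ∀ x ∈ P.Ev γ, ℓ γ x ∈ F γ) (lo : ℝ) : P.mass (P.below ℓ lo) ≤ ENNReal.ofReal lo * n * ENNReal.ofReal ((2 * K) ^ v.j) := by
  have hK0 : 0 ≤ K := by
    by_contra h
    have h1 := hK.mass
    rw [ENNReal.ofReal_of_nonpos (not_le.1 h).le, zero_mul] at h1
    exact absurd h1 (by norm_num)
  refine k2a_mass_le_of_forall hP fun γ => ?_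
  have hA : MeasurableSet (Set.Icc (0 : ℝ) 1 ×ˢ Metric.closedBall (0 : KbB v) K) :=
    measurableSet_Icc.prod Metric.isClosed_closedBall.measurableSet
  have hvol : volume (Set.Icc (0 : ℝ) 1 ×ˢ Metric.closedBall (0 : KbB v) K) = ENNReal.ofReal ((2 * K) ^ v.j) := by
    rw [Measure.volume_eq_prod, Measure.prod_prod, Real.volume_Icc, Real.volume_pi_closedBall _ hK0, Fintype.card_fin]
    simp
  have hae : ∀ᵐ x ∂P.mu γ, x ∈ P.below ℓ lo γ →
      x ∈ {x | ℓ γ x ∈ F γ ∧ P.bs γ x ∈ Set.Icc (0 : ℝ) 1 ×ˢ Metric.closedBall (0 : KbB v) K ∧ P.dn ℓ γ x ≤ ENNReal.ofReal lo} := by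
    refine ae_restrict_of_forall_mem (hP.Ev_meas γ) fun x hx hx' => ?_
    have hx2 := hP.Ev_sub γ hx
    refine ⟨hmem γ x hx, ⟨hx2.2, ?_⟩, le_of_lt hx'⟩
    rw [mem_closedBall_zero_iff]
    have := hK.base γ x.1 hx2.1 x.2 hx2.2
    exact le_trans (le_add_of_nonneg_right (norm_nonneg _)) this
  calc P.mu γ (P.below ℓ lo γ)
      ≤ P.mu γ {x | ℓ γ x ∈ F γ ∧ P.bs γ x ∈ Set.Icc (0 : ℝ) 1 ×ˢ Metric.closedBall (0 : KbB v) K ∧ P.dn ℓ γ x ≤ ENNReal.ofReal lo} :=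
        measure_mono_ae hae
    _ ≤ ENNReal.ofReal lo * (F γ).card * volume (Set.Icc (0 : ℝ) 1 ×ˢ Metric.closedBall (0 : KbB v) K) :=
        k2a_ceiling_pb hP hℓ γ (F γ) hA _
    _ ≤ ENNReal.ofReal lo * n * ENNReal.ofReal ((2 * K) ^ v.j) := by
        rw [hvol]
        gcongr
        exact hF γ

end ops

/-! ## 4. Leaf L-252-K2A-PB-5 : dyadic bins (pure arithmetic) -/

theorem k2a_dy_pos (x : ℝ) : 0 < kbDy x := by
  unfold kbDy
  positivity

theorem k2a_dy_bounds {x : ℝ} (hx : 0 < x) : x ≤ kbDy x ∧ kbDy x < 2 * x := by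
  have h2 : (0 : ℝ) < 2 := by norm_num
  have h21 : (1 : ℝ) < 2 := by norm_num
  have hL : (2 : ℝ) ^ Real.logb 2 x = x := Real.rpow_logb h2 (by norm_num) hx
  have e : kbDy x = (2 : ℝ) ^ ((⌈Real.logb 2 x⌉ : ℤ) : ℝ) := by
    unfold kbDy
    rw [Real.rpow_intCast]
  rw [e]
  constructor
  · calc x = (2 : ℝ) ^ Real.logb 2 x := hL.symm
      _ ≤ _ := Real.rpow_le_rpow_of_exponent_le h21.le (Int.le_ceil _)
  · calc (2 : ℝ) ^ ((⌈Real.logb 2 x⌉ : ℤ) : ℝ) < (2 : ℝ) ^ (Real.logb 2 x + 1) :=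
          Real.rpow_lt_rpow_of_exponent_lt h21 (Int.ceil_lt_add_one _)
      _ = 2 * x := by rw [Real.rpow_add h2, hL, Real.rpow_one, mul_comm]

theorem k2a_dy_one : kbDy 1 = 1 := by
  unfold kbDy
  simp

/-- nesting: the coarse bin is the fine bin divided by `2^n` (`Int` division rounds down for a positive divisor), `2^n < 2 y / x` -/
theorem k2a_bin_nest {x y : ℝ} (hx : 0 < x) (hxy : x ≤ y) : ∃ n : ℕ, (2 : ℝ) ^ n < 2 * (y / x) ∧ ∀ z : ℝ, kbBin y z = kbBin x z / (2 ^ n : ℤ) := by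
  have hy : 0 < y := lt_of_lt_of_le hx hxy
  have hpq : ⌈Real.logb 2 x⌉ ≤ ⌈Real.logb 2 y⌉ :=
    Int.ceil_mono (Real.logb_le_logb_of_le (by norm_num) hx hxy)
  obtain ⟨n, hn⟩ := Int.eq_ofNat_of_zero_le (sub_nonneg.2 hpq)
  have hq : ⌈Real.logb 2 y⌉ = ⌈Real.logb 2 x⌉ + n := by omega
  have hD : kbDy y = kbDy x * 2 ^ n := by
    unfold kbDy
    rw [hq, zpow_add₀ (by norm_num : (2 : ℝ) ≠ 0), zpow_natCast]
  have hxp := k2a_dy_pos x
  refine ⟨n, ?_, fun z => ?_⟩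
  · have h1 : (2 : ℝ) ^ n = kbDy y / kbDy x := by
      rw [hD]
      field_simp
    rw [h1, div_lt_iff₀ hxp]
    have b1 := (k2a_dy_bounds hy).2
    have b2 := (k2a_dy_bounds hx).1
    calc kbDy y < 2 * y := b1
      _ = 2 * (y / x) * x := by field_simp
      _ ≤ 2 * (y / x) * kbDy x := mul_le_mul_of_nonneg_left b2 (by positivity)
  · unfold kbBin
    rw [hD, ← div_div]
    have := Int.floor_div_natCast (z / kbDy x) (2 ^ n)
    push_cast at this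
    exact this

theorem k2a_bin_fibre (n : ℕ) (e z : ℤ) : z / (2 ^ n : ℤ) = e ↔ z ∈ Finset.Ico (e * 2 ^ n) ((e + 1) * 2 ^ n) := by
  rw [Int.ediv_eq_iff_of_pos (by positivity), Finset.mem_Ico, add_mul, one_mul]

theorem k2a_bin_range {wd x R : ℝ} (hwd : 0 < wd) (hx : |x| ≤ R) : kbBin wd x ∈ Finset.Icc (-(⌈R / wd⌉ + 1)) ⌈R / wd⌉ := by
  have hD := k2a_dy_pos wd
  have hb := (k2a_dy_bounds hwd).1
  have hR : 0 ≤ R := (abs_nonneg x).trans hx
  have habs : |x / kbDy wd| ≤ R / wd := by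
    rw [abs_div, abs_of_pos hD]
    exact div_le_div₀ hR hx hwd hb
  obtain ⟨h1, h2⟩ := abs_le.1 habs
  have hc : R / wd ≤ (⌈R / wd⌉ : ℝ) := Int.le_ceil _
  rw [Finset.mem_Icc]
  unfold kbBin
  constructor
  · rw [Int.le_floor]
    push_cast
    linarith
  · have h3 : ((⌊x / kbDy wd⌋ : ℤ) : ℝ) ≤ (⌈R / wd⌉ : ℝ) := (Int.floor_le _).trans (h2.trans hc)
    exact_mod_cast h3

/-! ## 5. Leaf L-252-K2A-PB-6 : the densities of `(p_r, [V]_u)` -/

/-- a weighted sum of world-wise bounds -/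
theorem k2a_mass_le_tot {A : P.W → Set (P.Lam × ℝ)} {c : ℝ≥0∞} (h : ∀ γ, P.mu γ (A γ) ≤ c * P.mu γ Set.univ) : P.mass A ≤ c * P.tot := by
  unfold KbPb.tot KbPb.mass
  rw [Finset.mul_sum]
  refine Finset.sum_le_sum fun γ _ => ?_
  calc P.om γ * P.mu γ (A γ) ≤ P.om γ * (c * P.mu γ Set.univ) := mul_le_mul_right (h γ) _
    _ = c * (P.om γ * P.mu γ Set.univ) := by ring

theorem k2a_card_Ico_pow (n : ℕ) (e : ℤ) : (Finset.Ico (e * 2 ^ n) ((e + 1) * 2 ^ n)).card = 2 ^ n := by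
  rw [Int.card_Ico]
  have : (e + 1) * 2 ^ n - e * 2 ^ n = ((2 ^ n : ℕ) : ℤ) := by
    push_cast
    ring
  rw [this, Int.toNat_natCast]

/-- the coarse label is a function of the fine one, with fibres of size `< 2 (a'/a) (2 b'/b)^j` -/
theorem k2a_hv_nest (hP : P.WF) {a a' b b' : ℝ} (ha : 0 < a) (haa : a ≤ a') (hb : 0 < b) (hbb : b ≤ b') (γ : P.W) :
    ∃ (φ : ℤ × (Fin v.j → ℤ) → ℤ × (Fin v.j → ℤ)) (Fb : ℤ × (Fin v.j → ℤ) → Finset (ℤ × (Fin v.j → ℤ))) (n : ℕ),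
      P.hv a' b' γ = φ ∘ P.hv a b γ ∧ (∀ e, (Fb e).card ≤ n) ∧ (∀ d, d ∈ Fb (φ d)) ∧ (n : ℝ) ≤ 2 * (a' / a) * (2 * (b' / b)) ^ v.j := by
  have hB := hP.B_pos γ
  obtain ⟨n₁, h1, e1⟩ := k2a_bin_nest (x := a / P.B γ) (y := a' / P.B γ) (div_pos ha hB) (div_le_div_of_nonneg_right haa hB.le)
  obtain ⟨n₂, h2, e2⟩ := k2a_bin_nest hb hbb
  rw [div_div_div_cancel_right₀ hB.ne'] at h1
  refine ⟨fun d => (d.1 / (2 ^ n₁ : ℤ), fun i => d.2 i / (2 ^ n₂ : ℤ)),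
    fun e => Finset.Ico (e.1 * 2 ^ n₁) ((e.1 + 1) * 2 ^ n₁) ×ˢ
      Fintype.piFinset fun i => Finset.Ico (e.2 i * 2 ^ n₂) ((e.2 i + 1) * 2 ^ n₂),
    2 ^ n₁ * (2 ^ n₂) ^ v.j, ?_, ?_, ?_, ?_⟩
  · funext x
    exact Prod.ext (e1 _) (funext fun i => e2 _)
  · intro e
    rw [Finset.card_product, Fintype.card_piFinset]
    simp only [k2a_card_Ico_pow, Finset.prod_const, Finset.card_univ, Fintype.card_fin]
    exact le_rfl
  · intro d
    rw [Finset.mem_product, Fintype.mem_piFinset]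
    exact ⟨(k2a_bin_fibre n₁ _ _).1 rfl, fun i => (k2a_bin_fibre n₂ _ _).1 rfl⟩
  · have ha' : 0 < a' := ha.trans_le haa
    push_cast
    exact mul_le_mul h1.le (pow_le_pow_left₀ (by positivity) h2.le _) (by positivity)
      (by positivity)

theorem k2a_hv_mono (hP : P.WF) {a a' b b' : ℝ} (ha : 0 < a) (haa : a ≤ a') (hb : 0 < b) (hbb : b ≤ b') (γ : P.W) :
    ∀ᵐ x ∂P.mu γ, P.dn (P.hv a b) γ x ≤ P.dn (P.hv a' b') γ x := by
  obtain ⟨φ, -, -, hφ, -, -, -⟩ := k2a_hv_nest hP ha haa hb hbb γ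
  simp only [k2a_dn_eq, hφ]
  exact k2a_dn_comp_le (k2a_fr hP γ) _ φ

/-- one-scale form of `0 ≤ f(r',u') - f(r,u) ≤ (r'-r) + j (u'-u)` -/
theorem k2a_hv_lip (hP : P.WF) {a a' b b' : ℝ} (ha : 0 < a) (haa : a ≤ a') (hb : 0 < b) (hbb : b ≤ b') (ε : ℝ≥0∞) :
    P.mass (fun γ => {x | P.dn (P.hv a b) γ x < ε * P.dn (P.hv a' b') γ x}) ≤ ε * ENNReal.ofReal (2 * (a' / a) * (2 * (b' / b)) ^ v.j) * P.tot := by
  refine k2a_mass_le_tot fun γ => ?_
  obtain ⟨φ, Fb, n, hφ, hcard, hmem, hn⟩ := k2a_hv_nest hP ha haa hb hbb γ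
  simp only [k2a_dn_eq, hφ]
  refine (k2a_comp_small (k2a_fr hP γ) (k2a_hv_meas hP a b γ) φ Fb n hcard (ae_of_all _ fun x => hmem _) ε).trans ?_
  refine mul_le_mul_left (mul_le_mul_right ?_ _) _
  rw [← ENNReal.ofReal_natCast]
  exact ENNReal.ofReal_le_ofReal hn

theorem k2a_hv_le_hid (hP : P.WF) (a b : ℝ) (γ : P.W) : ∀ᵐ x ∂P.mu γ, P.dn (P.hv a b) γ x ≤ P.dn (P.hid a) γ x :=
  k2a_lpair_le hP (P.hid a) (P.vel b) γ

theorem k2a_ntv_pos {K : ℝ} (hK : P.Ntv K) : 0 < K := by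
  by_contra h
  have h1 := hK.mass
  rw [ENNReal.ofReal_of_nonpos (not_lt.1 h), zero_mul] at h1
  exact absurd h1 (by simp)

theorem k2a_card_Icc_ceil {R : ℝ} (hR : 0 ≤ R) : ((Finset.Icc (-(⌈R⌉ + 1)) ⌈R⌉).card : ℝ) ≤ 2 * R + 4 := by
  rw [Int.card_Icc]
  have h0 : 0 ≤ ⌈R⌉ := Int.ceil_nonneg hR
  have h1 : (0 : ℤ) ≤ ⌈R⌉ + 1 - -(⌈R⌉ + 1) := by omega
  have h2 : ((⌈R⌉ + 1 - -(⌈R⌉ + 1)).toNat : ℝ) = 2 * (⌈R⌉ : ℝ) + 2 := by
    calc ((⌈R⌉ + 1 - -(⌈R⌉ + 1)).toNat : ℝ) = (((⌈R⌉ + 1 - -(⌈R⌉ + 1)).toNat : ℤ) : ℝ) := by norm_cast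
      _ = ((⌈R⌉ + 1 - -(⌈R⌉ + 1) : ℤ) : ℝ) := by rw [Int.toNat_of_nonneg h1]
      _ = _ := by push_cast; ring
  rw [h2]
  have := Int.ceil_lt_add_one R
  linarith

theorem k2a_vel_mem (hP : P.WF) {K : ℝ} (hK : P.Ntv K) {b : ℝ} (hb : 0 < b) (γ : P.W) (x : P.Lam × ℝ) (hx : x ∈ P.Ev γ) :
    P.vel b γ x ∈ Fintype.piFinset fun _ : Fin v.j => Finset.Icc (-(⌈K / b⌉ + 1)) ⌈K / b⌉ := by
  rw [Fintype.mem_piFinset]
  intro i
  have hx' := hP.Ev_sub γ hx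
  have h1 := hK.base γ x.1 hx'.1 x.2 hx'.2
  have h2 : |kbV (P.co γ x.1) i| ≤ K := by
    have h3 := norm_le_pi_norm (kbV (P.co γ x.1)) i
    rw [Real.norm_eq_abs] at h3
    linarith [norm_nonneg (kbY (P.co γ x.1) x.2)]
  exact k2a_bin_range hb h2

theorem k2a_card_vel_box (K : ℝ) : (Fintype.piFinset fun _ : Fin v.j => Finset.Icc (-(⌈K⌉ + 1)) ⌈K⌉).card = (Finset.Icc (-(⌈K⌉ + 1)) ⌈K⌉).card ^ v.j := by
  rw [Fintype.card_piFinset]
  simp

/-- one-scale form of `f(r,0) = f(r)`: the unit velocity bin costs `(2K+4)^j` choices -/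
theorem k2a_hv_unit (hP : P.WF) {K : ℝ} (hK : P.Ntv K) (a : ℝ) (ε : ℝ≥0∞) :
    P.mass (fun γ => {x | P.dn (P.hv a 1) γ x < ε * P.dn (P.hid a) γ x}) ≤ ε * ENNReal.ofReal ((2 * K + 4) ^ v.j) * P.tot := by
  have hK0 := k2a_ntv_pos hK
  have h := k2a_list_small hP (k2a_hid_meas hP a) (k2a_vel_meas hP 1)
    (fun _ _ _ => Fintype.piFinset fun _ : Fin v.j => Finset.Icc (-(⌈K / 1⌉ + 1)) ⌈K / 1⌉)
    ((Finset.Icc (-(⌈K / 1⌉ + 1)) ⌈K / 1⌉).card ^ v.j) (fun _ _ _ => (k2a_card_vel_box _).le)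
    (fun _ _ _ => MeasurableSet.const _) (fun γ x hx => k2a_vel_mem hP hK one_pos γ x hx) ε
  refine h.trans (mul_le_mul_left (mul_le_mul_right ?_ _) _)
  rw [← ENNReal.ofReal_natCast]
  refine ENNReal.ofReal_le_ofReal ?_
  push_cast
  refine pow_le_pow_left₀ (by positivity) ?_ _
  rw [div_one]
  exact k2a_card_Icc_ceil hK0.le

theorem k2a_e_le (v : KbVer) : v.e ≤ 3 := by
  cases v <;> simp [KbVer.e]

theorem k2a_hw_le (hP : P.WF) {Q : ℝ} (hQ : P.Tmp Q) (γ : P.W) (x : P.Lam × ℝ) (hx : x ∈ P.Ev γ) : 0 ≤ Q ∧ |P.hw γ x| ≤ 3 * Q := by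
  have hx' := hP.Ev_sub γ hx
  have h1 := hQ.co_le γ x.1 hx'.1
  have hQ0 : 0 ≤ Q := (norm_nonneg _).trans h1
  refine ⟨hQ0, ?_⟩
  unfold KbPb.hw kbW
  have ht : |x.2| ≤ 1 := abs_le.2 ⟨by linarith [hx'.2.1], hx'.2.2⟩
  calc |∑ i, (P.co γ x.1).2.2 i * x.2 ^ (i : ℕ)| ≤ ∑ i : Fin v.e, |(P.co γ x.1).2.2 i * x.2 ^ (i : ℕ)| := Finset.abs_sum_le_sum_abs _ _
    _ ≤ ∑ _i : Fin v.e, Q := by
        refine Finset.sum_le_sum fun i _ => ?_
        rw [abs_mul, abs_pow]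
        have h2 : |(P.co γ x.1).2.2 i| ≤ Q := by
          have h3 := norm_le_pi_norm (P.co γ x.1).2.2 i
          rw [Real.norm_eq_abs] at h3
          exact h3.trans (((norm_snd_le _).trans (norm_snd_le _)).trans h1)
        calc |(P.co γ x.1).2.2 i| * |x.2| ^ (i : ℕ) ≤ Q * 1 := mul_le_mul h2 (pow_le_one₀ (abs_nonneg _) ht) (by positivity) hQ0
          _ = Q := mul_one _
    _ = v.e * Q := by simp
    _ ≤ 3 * Q := by
        have : (v.e : ℝ) ≤ 3 := by exact_mod_cast k2a_e_le v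
        exact mul_le_mul_of_nonneg_right this hQ0

theorem k2a_Icc_ceil_mono {R R' : ℝ} (h : R ≤ R') : Finset.Icc (-(⌈R⌉ + 1)) ⌈R⌉ ⊆ Finset.Icc (-(⌈R'⌉ + 1)) ⌈R'⌉ := by
  have := Int.ceil_mono h
  exact Finset.Icc_subset_Icc (by omega) this

/-- polynomially many entries -/
theorem k2a_hv_count (hP : P.WF) {K Q : ℝ} (hK : P.Ntv K) (hQ : P.Tmp Q) {a b : ℝ} (ha : 0 < a) (hb : 0 < b) :
    ∃ (F : P.W → Finset (ℤ × (Fin v.j → ℤ))) (n : ℕ), (∀ γ, (F γ).card ≤ n) ∧ (n : ℝ) ≤ (6 * Q ^ 2 / a + 4) * (2 * K / b + 4) ^ v.j ∧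
      ∀ γ, ∀ x ∈ P.Ev γ, P.hv a b γ x ∈ F γ := by
  have hK0 := k2a_ntv_pos hK
  refine ⟨fun _ => Finset.Icc (-(⌈3 * Q ^ 2 / a⌉ + 1)) ⌈3 * Q ^ 2 / a⌉ ×ˢ
      Fintype.piFinset fun _ : Fin v.j => Finset.Icc (-(⌈K / b⌉ + 1)) ⌈K / b⌉,
    (Finset.Icc (-(⌈3 * Q ^ 2 / a⌉ + 1)) ⌈3 * Q ^ 2 / a⌉).card * (Finset.Icc (-(⌈K / b⌉ + 1)) ⌈K / b⌉).card ^ v.j,
    fun γ => ?_, ?_, fun γ x hx => ?_⟩
  · rw [Finset.card_product, k2a_card_vel_box]
  · push_cast
    have h1 := k2a_card_Icc_ceil (R := 3 * Q ^ 2 / a) (by positivity)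
    have h2 := k2a_card_Icc_ceil (R := K / b) (by positivity)
    refine mul_le_mul (h1.trans (le_of_eq (by ring))) (pow_le_pow_left₀ (by positivity) (h2.trans (le_of_eq (by ring))) _)
      (by positivity) (by positivity)
  · rw [Finset.mem_product]
    refine ⟨?_, k2a_vel_mem hP hK hb γ x hx⟩
    obtain ⟨hQ0, hw⟩ := k2a_hw_le hP hQ γ x hx
    have hB := hP.B_pos γ
    refine k2a_Icc_ceil_mono ?_ (k2a_bin_range (div_pos ha hB) hw)
    rw [div_div_eq_mul_div]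
    refine div_le_div_of_nonneg_right ?_ ha.le
    calc 3 * Q * P.B γ ≤ 3 * Q * Q := mul_le_mul_of_nonneg_left (hQ.B_le γ).1 (by positivity)
      _ = 3 * Q ^ 2 := by ring

theorem k2a_hv_below (hP : P.WF) {K Q : ℝ} (hK : P.Ntv K) (hQ : P.Tmp Q) {a b : ℝ} (ha : 0 < a) (hb : 0 < b) (lo : ℝ) :
    P.mass (P.below (P.hv a b) lo) ≤ ENNReal.ofReal (lo * ((6 * Q ^ 2 / a + 4) * (2 * K / b + 4) ^ v.j) * (2 * K) ^ v.j) := by
  have hK0 := k2a_ntv_pos hK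
  obtain ⟨F, n, hF, hn, hmem⟩ := k2a_hv_count hP hK hQ ha hb
  refine (k2a_below_le hP hK (k2a_hv_meas hP a b) F n hF hmem lo).trans ?_
  rcases le_or_gt lo 0 with hlo | hlo
  · rw [ENNReal.ofReal_of_nonpos hlo]
    simp
  · rw [ENNReal.ofReal_mul (by positivity), ENNReal.ofReal_mul hlo.le]
    refine mul_le_mul_left (mul_le_mul_right ?_ _) _
    rw [← ENNReal.ofReal_natCast]
    exact ENNReal.ofReal_le_ofReal hn

/-! ## 6. Leaf L-252-K2A-PB-7 : the type pigeonhole -/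

/-- union bound over the `T^m` types and the `m` exceptional sets -/
theorem k2a_pigeon (P : KbPb v) (m T : ℕ) (hT : 0 < T) (G : Fin m → P.W → P.Lam × ℝ → ℝ≥0∞) (c : Fin T → Set ℝ≥0∞) :
    ∃ e : Fin m → Fin T, P.tot ≤ (T : ℝ≥0∞) ^ m * P.mass (fun γ => {x | ∀ i, G i γ x ∈ c (e i)}) + ∑ i, P.mass fun γ => {x | ∀ j, G i γ x ∉ c j} := by
  classical
  have : Nonempty (Fin T) := ⟨⟨0, hT⟩⟩
  obtain ⟨e, -, he⟩ := Finset.exists_max_image (Finset.univ : Finset (Fin m → Fin T))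
    (fun e => P.mass (fun γ => {x | ∀ i, G i γ x ∈ c (e i)})) Finset.univ_nonempty
  refine ⟨e, ?_⟩
  have h1 : P.tot ≤ ∑ e' : Fin m → Fin T, P.mass (fun γ => {x | ∀ i, G i γ x ∈ c (e' i)})
      + ∑ i, P.mass fun γ => {x | ∀ j, G i γ x ∉ c j} := by
    unfold KbPb.tot KbPb.mass
    rw [Finset.sum_comm, Finset.sum_comm (s := (Finset.univ : Finset (Fin m))), ← Finset.sum_add_distrib]
    refine Finset.sum_le_sum fun γ _ => ?_
    rw [← Finset.mul_sum, ← Finset.mul_sum, ← mul_add]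
    refine mul_le_mul_right ?_ _
    calc P.mu γ Set.univ
        ≤ P.mu γ ((⋃ e' : Fin m → Fin T, {x | ∀ i, G i γ x ∈ c (e' i)}) ∪ ⋃ i, {x | ∀ j, G i γ x ∉ c j}) := by
          refine measure_mono fun x _ => ?_
          by_cases h : ∃ i, ∀ j, G i γ x ∉ c j
          · obtain ⟨i, hi⟩ := h
            exact Or.inr (Set.mem_iUnion.2 ⟨i, hi⟩)
          · push Not at h
            choose e' he' using h
            exact Or.inl (Set.mem_iUnion.2 ⟨e', he'⟩)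
      _ ≤ P.mu γ (⋃ e' : Fin m → Fin T, {x | ∀ i, G i γ x ∈ c (e' i)}) + P.mu γ (⋃ i, {x | ∀ j, G i γ x ∉ c j}) :=
          measure_union_le _ _
      _ ≤ _ := add_le_add (measure_iUnion_fintype_le _ _) (measure_iUnion_fintype_le _ _)
  refine h1.trans (add_le_add ?_ le_rfl)
  calc ∑ e' : Fin m → Fin T, P.mass (fun γ => {x | ∀ i, G i γ x ∈ c (e' i)})
      ≤ ∑ _e' : Fin m → Fin T, P.mass (fun γ => {x | ∀ i, G i γ x ∈ c (e i)}) :=
        Finset.sum_le_sum fun e' _ => he e' (Finset.mem_univ _)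
    _ = (T : ℝ≥0∞) ^ m * P.mass (fun γ => {x | ∀ i, G i γ x ∈ c (e i)}) := by
        simp [Finset.sum_const, Finset.card_univ]

/-- the geometric cell `[lo ρ^j, lo ρ^{j+1})` -/
def k2aCell (lo ρ : ℝ) (j : ℕ) : Set ℝ≥0∞ := Set.Ico (ENNReal.ofReal (lo * ρ ^ j)) (ENNReal.ofReal (lo * ρ ^ (j + 1)))

/-- the incidences of type `e` : densities of the labels `ℓ i` and fixed quantities `G i'` -/
def k2aType {m m' T : ℕ} (P : KbPb v) (ℓ : Fin m → P.Lab D) (G : Fin m' → P.W → P.Lam × ℝ → ℝ≥0∞) (lo ρ : ℝ) (e : Fin m → Fin T) (e' : Fin m' → Fin T) :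
    P.W → Set (P.Lam × ℝ) := fun γ => {x | (∀ i, P.dn (ℓ i) γ x ∈ k2aCell lo ρ (e i)) ∧ ∀ i, G i γ x ∈ k2aCell lo ρ (e' i)}

/-- the cells `j < T` cover `[lo, lo ρ^T)` -/
theorem k2a_cell_cover (lo ρ : ℝ) (T : ℕ) (z : ℝ≥0∞) (h : ∀ j : Fin T, z ∉ k2aCell lo ρ j) :
    z ∉ Set.Ico (ENNReal.ofReal lo) (ENNReal.ofReal (lo * ρ ^ T)) := by
  induction T with
  | zero =>
    intro hz
    rw [pow_zero, mul_one] at hz
    exact absurd hz.2 (not_lt.2 hz.1)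
  | succ T ih =>
    intro hz
    by_cases h1 : z < ENNReal.ofReal (lo * ρ ^ T)
    · exact ih (fun j => h j.castSucc) ⟨hz.1, h1⟩
    · exact h (Fin.last T) ⟨not_lt.1 h1, hz.2⟩

theorem k2a_type_meas [Countable D] (hP : P.WF) {m m' T : ℕ} (ℓ : Fin m → P.Lab D) (hℓ : ∀ i, P.LabMeas (ℓ i))
    (G : Fin m' → P.W → P.Lam × ℝ → ℝ≥0∞) (hG : ∀ i γ, Measurable (G i γ)) (lo ρ : ℝ) (e : Fin m → Fin T) (e' : Fin m' → Fin T) (γ : P.W) :
    MeasurableSet (k2aType P ℓ G lo ρ e e' γ) := by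
  have h : k2aType P ℓ G lo ρ e e' γ = (⋂ i, P.dn (ℓ i) γ ⁻¹' k2aCell lo ρ (e i)) ∩ ⋂ i, G i γ ⁻¹' k2aCell lo ρ (e' i) := by
    ext x
    simp [k2aType]
  rw [h]
  exact (MeasurableSet.iInter fun i => k2a_dn_measurable hP (hℓ i) γ measurableSet_Ico).inter
    (MeasurableSet.iInter fun i => hG i γ measurableSet_Ico)

/-- ceilings persist in the selected type -/
theorem k2a_type_above [Countable D] (hP : P.WF) {m m' T : ℕ} (ℓ : Fin m → P.Lab D)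
    (G : Fin m' → P.W → P.Lam × ℝ → ℝ≥0∞) (lo ρ : ℝ) (e : Fin m → Fin T) (e' : Fin m' → Fin T)
    (hS : ∀ γ, MeasurableSet (k2aType P ℓ G lo ρ e e' γ)) (i : Fin m) :
    (P.sel (k2aType P ℓ G lo ρ e e')).mass ((P.sel (k2aType P ℓ G lo ρ e e')).above (ℓ i) (lo * ρ ^ ((e i : ℕ) + 1))) = 0 := by
  refine (k2a_sel_mass hS _).trans ?_
  unfold KbPb.mass
  refine Finset.sum_eq_zero fun γ _ => ?_
  rw [mul_eq_zero]
  right
  rw [measure_eq_zero_iff_ae_notMem]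
  filter_upwards [k2a_sel_dn_le hP hS (ℓ i) γ] with x hx hmem
  have hx2 : (P.sel (k2aType P ℓ G lo ρ e e')).dn (ℓ i) γ x ≤ P.dn (ℓ i) γ x := hx
  have h1 : ENNReal.ofReal (lo * ρ ^ ((e i : ℕ) + 1)) < (P.sel (k2aType P ℓ G lo ρ e e')).dn (ℓ i) γ x := hmem.1
  exact absurd (lt_of_lt_of_le h1 hx2) (not_lt.2 (hmem.2.1 i).2.le)

/-- floors by (2.4) in the selected type -/
theorem k2a_type_below [Countable D] (hP : P.WF) {m m' T : ℕ} (ℓ : Fin m → P.Lab D) (hℓ : ∀ i, P.LabMeas (ℓ i))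
    (G : Fin m' → P.W → P.Lam × ℝ → ℝ≥0∞) (lo ρ : ℝ) (e : Fin m → Fin T) (e' : Fin m' → Fin T)
    (hS : ∀ γ, MeasurableSet (k2aType P ℓ G lo ρ e e' γ)) (i : Fin m) (δ : ℝ) (hδ : 0 ≤ δ) :
    (P.sel (k2aType P ℓ G lo ρ e e')).mass ((P.sel (k2aType P ℓ G lo ρ e e')).below (ℓ i) (δ * (lo * ρ ^ (e i : ℕ)))) ≤ ENNReal.ofReal δ * P.tot := by
  have h := (k2a_sel_mass hS _).ge.trans (k2a_sel_small hP hS (hℓ i) (ENNReal.ofReal δ))
  refine (k2a_sel_mass hS _).le.trans ((k2a_mass_mono fun γ x hx => ?_).trans h)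
  refine ⟨?_, hx.2⟩
  have h1 : (P.sel (k2aType P ℓ G lo ρ e e')).dn (ℓ i) γ x < ENNReal.ofReal (δ * (lo * ρ ^ (e i : ℕ))) := hx.1
  rw [ENNReal.ofReal_mul hδ] at h1
  exact lt_of_lt_of_le h1 (mul_le_mul_right (hx.2.1 i).1 _)

/-- **one-scale core of `a01:homogenization`.**   Labels `ℓ i` (their densities change under selection) and fixed measurable quantities `G i` ("other logarithmic quantities").   `k2a_pigeon` for the `m + m'` functions;
after the selection of one type: ceilings persist (`k2a_sel_dn_le`), floors by (2.4) (`k2a_sel_small`), the `G i` stay in their cells. -/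
theorem k2a_homog_core [Countable D] (hP : P.WF) {m m' T : ℕ} (hT : 0 < T) (ℓ : Fin m → P.Lab D) (hℓ : ∀ i, P.LabMeas (ℓ i))
    (G : Fin m' → P.W → P.Lam × ℝ → ℝ≥0∞) (hG : ∀ i γ, Measurable (G i γ)) {lo ρ : ℝ} (hlo : 0 < lo) (hρ : 1 < ρ) :
    ∃ (e : Fin m → Fin T) (e' : Fin m' → Fin T),
      (∀ γ, MeasurableSet (k2aType P ℓ G lo ρ e e' γ)) ∧
      P.tot ≤ (T : ℝ≥0∞) ^ (m + m') * P.mass (k2aType P ℓ G lo ρ e e')
        + (∑ i, (P.mass (P.below (ℓ i) lo) + P.mass fun γ => {x | ENNReal.ofReal (lo * ρ ^ T) ≤ P.dn (ℓ i) γ x}))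
        + (∑ i, P.mass fun γ => {x | G i γ x ∉ Set.Ico (ENNReal.ofReal lo) (ENNReal.ofReal (lo * ρ ^ T))}) ∧
      (∀ i, (P.sel (k2aType P ℓ G lo ρ e e')).mass ((P.sel (k2aType P ℓ G lo ρ e e')).above (ℓ i) (lo * ρ ^ ((e i : ℕ) + 1))) = 0) ∧
      ∀ i, ∀ δ : ℝ, 0 ≤ δ → (P.sel (k2aType P ℓ G lo ρ e e')).mass ((P.sel (k2aType P ℓ G lo ρ e e')).below (ℓ i) (δ * (lo * ρ ^ (e i : ℕ)))) ≤ ENNReal.ofReal δ * P.tot := by
  obtain ⟨ē, hē⟩ := k2a_pigeon P (m + m') T hT (Fin.append (fun i => P.dn (ℓ i)) G) (fun j => k2aCell lo ρ j)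
  have hS := fun γ => k2a_type_meas hP ℓ hℓ G hG lo ρ (fun i => ē (Fin.castAdd m' i)) (fun i => ē (Fin.natAdd m i)) γ
  refine ⟨fun i => ē (Fin.castAdd m' i), fun i => ē (Fin.natAdd m i), hS, ?_,
    fun i => k2a_type_above hP ℓ G lo ρ _ _ hS i, fun i δ hδ => k2a_type_below hP ℓ hℓ G lo ρ _ _ hS i δ hδ⟩
  have e1 : (fun γ => {x | ∀ i, Fin.append (fun i => P.dn (ℓ i)) G i γ x ∈ k2aCell lo ρ (ē i)})
      = k2aType P ℓ G lo ρ (fun i => ē (Fin.castAdd m' i)) (fun i => ē (Fin.natAdd m i)) := by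
    funext γ
    ext x
    simp only [k2aType, Set.mem_ofPred_eq, Fin.forall_fin_add, Fin.append_left, Fin.append_right]
  rw [e1, Fin.sum_univ_add] at hē
  simp only [Fin.append_left, Fin.append_right] at hē
  rw [add_assoc]
  refine hē.trans (add_le_add le_rfl (add_le_add (Finset.sum_le_sum fun i _ => ?_) (Finset.sum_le_sum fun i _ => ?_)))
  · refine le_trans (k2a_mass_mono fun γ x hx => ?_) (k2a_mass_union _ _)
    have h1 := k2a_cell_cover lo ρ T _ hx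
    by_cases h2 : P.dn (ℓ i) γ x < ENNReal.ofReal lo
    · exact Or.inl h2
    · refine Or.inr ?_
      by_contra h3
      exact h1 ⟨not_lt.1 h2, not_le.1 h3⟩
  · exact k2a_mass_mono fun γ x hx => k2a_cell_cover lo ρ T _ hx

/-! ## 7. Leaf L-252-K2A-PB-8 : angular caps under coarsening -/

/-- `k2a_angular` in every world (`φ` from `k2a_bin_nest`), summed.   `aL ≤ ab` : fine and coarse thickness; `u` : angular width; `A` : angular cap; `nL` : typical density of `p_L`; `K` : slack. -/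
theorem k2a_angular_pb (hP : P.WF) {aL ab u : ℝ} (h0 : 0 < aL) (h1 : aL ≤ ab) (A nL K : ℝ≥0∞) :
    P.mass (fun γ => {x | 2 * (A * K) * P.dn (P.hid ab) γ x < P.dn (P.hv ab u) γ x})
      ≤ 2 * (P.mass (fun γ => {x | A * nL < P.dn (P.hv aL u) γ x}) + P.mass fun γ => {x | K * P.dn (P.hid aL) γ x < nL}) := by
  have key : ∀ γ, P.mu γ {x | 2 * (A * K) * P.dn (P.hid ab) γ x < P.dn (P.hv ab u) γ x}
      ≤ 2 * (P.mu γ {x | A * nL < P.dn (P.hv aL u) γ x} + P.mu γ {x | K * P.dn (P.hid aL) γ x < nL}) := by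
    intro γ
    have hB := hP.B_pos γ
    obtain ⟨n, -, hn⟩ := k2a_bin_nest (x := aL / P.B γ) (y := ab / P.B γ) (by positivity) (by gcongr)
    have hφ : P.hid ab γ = (fun z : ℤ => z / (2 ^ n : ℤ)) ∘ P.hid aL γ := by
      funext x
      exact hn _
    have := k2a_angular (k2a_fr hP γ) (k2a_hid_meas hP aL γ) (β := P.vel u γ) (k2a_vel_meas hP u γ)
      (fun z : ℤ => z / (2 ^ n : ℤ)) A nL K
    rw [← hφ] at this
    exact this
  unfold KbPb.mass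
  calc ∑ γ, P.om γ * P.mu γ {x | 2 * (A * K) * P.dn (P.hid ab) γ x < P.dn (P.hv ab u) γ x}
      ≤ ∑ γ, P.om γ * (2 * (P.mu γ {x | A * nL < P.dn (P.hv aL u) γ x} + P.mu γ {x | K * P.dn (P.hid aL) γ x < nL})) := by
        gcongr with γ _
        exact key γ
    _ = _ := by
        rw [← Finset.sum_add_distrib, Finset.mul_sum]
        refine Finset.sum_congr rfl fun γ _ => ?_
        ring

/-- the same after a later selection `S` (the denominator is the NEW pure density): (2.4) for the denominator -/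
theorem k2a_angular_sel (hP : P.WF) {aL ab u : ℝ} (h0 : 0 < aL) (h1 : aL ≤ ab) (A nL K ε : ℝ≥0∞) {S : P.W → Set (P.Lam × ℝ)} (hS : ∀ γ, MeasurableSet (S γ)) :
    (P.sel S).mass (fun γ => {x | 2 * (A * K) * (P.sel S).dn (P.hid ab) γ x < ε * (P.sel S).dn (P.hv ab u) γ x})
      ≤ 2 * (P.mass (fun γ => {x | A * nL < P.dn (P.hv aL u) γ x}) + P.mass fun γ => {x | K * P.dn (P.hid aL) γ x < nL}) + ε * P.tot := by
  refine (k2a_sel_mass hS _).le.trans ?_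
  calc P.mass (fun γ => {x | 2 * (A * K) * (P.sel S).dn (P.hid ab) γ x < ε * (P.sel S).dn (P.hv ab u) γ x} ∩ S γ)
      ≤ P.mass (fun γ => {x | 2 * (A * K) * P.dn (P.hid ab) γ x < P.dn (P.hv ab u) γ x}
          ∪ ({x | (P.sel S).dn (P.hid ab) γ x < ε * P.dn (P.hid ab) γ x} ∩ S γ)) := by
        refine k2a_mass_mono_ae fun γ => ?_
        filter_upwards [k2a_sel_dn_le hP hS (P.hv ab u) γ] with x hx hx'
        obtain ⟨hx1, hx2⟩ := hx'
        by_cases hc : (P.sel S).dn (P.hid ab) γ x < ε * P.dn (P.hid ab) γ x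
        · exact Or.inr ⟨hc, hx2⟩
        · left
          rw [not_lt] at hc
          have hx1' : 2 * (A * K) * (P.sel S).dn (P.hid ab) γ x < ε * (P.sel S).dn (P.hv ab u) γ x := hx1
          have h3 : ε * (2 * (A * K) * P.dn (P.hid ab) γ x) < ε * P.dn (P.hv ab u) γ x := by
            calc ε * (2 * (A * K) * P.dn (P.hid ab) γ x) = 2 * (A * K) * (ε * P.dn (P.hid ab) γ x) := by ring
              _ ≤ 2 * (A * K) * (P.sel S).dn (P.hid ab) γ x := by gcongr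
              _ < ε * (P.sel S).dn (P.hv ab u) γ x := hx1'
              _ ≤ ε * P.dn (P.hv ab u) γ x := by gcongr; exact hx
          exact lt_of_mul_lt_mul_left' h3
    _ ≤ P.mass (fun γ => {x | 2 * (A * K) * P.dn (P.hid ab) γ x < P.dn (P.hv ab u) γ x})
          + P.mass (fun γ => {x | (P.sel S).dn (P.hid ab) γ x < ε * P.dn (P.hid ab) γ x} ∩ S γ) := k2a_mass_union _ _
    _ ≤ _ := by
        exact add_le_add (k2a_angular_pb hP h0 h1 A nL K)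
          ((k2a_sel_mass hS _).ge.trans (k2a_sel_small hP hS (k2a_hid_meas hP ab) ε))

end

end Claimed.Agent.R252
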