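import Claimed.Agent.R252.Base.Seq
import Claimed.Agent.R252.S2a.PbContract

/-!
# ROW 252 (S0492), unit S2aA (post BP-252-S2aA, sub-architect helper129), file 3: TYPICAL DENSITIES, PROFILES, HOMOGENISATION, ANGULAR COARSENING ALONG `uf`.      CONTRACT file: the `sorry`s are the leaves L-252-K2A-SEQ-*.

EXIT = the hubs of `Base/Hub2.lean` owned by S2aA, under the names `k2a_hub_*` (hypotheses `Dense`, `LabOk`, `KbProfile` written out, so that `Hub2` can import this file):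
`k2a_hub_typ_sel`, `k2a_hub_typ_unique`, `k2a_hub_typ_refine`, `k2a_hub_sel_ok`, `k2a_hub_profile_*`, `k2a_hub_homog`, `k2a_hub_hom_sel`, `k2a_hub_cap_sel`, `k2a_hub_coarse`.

## Method
* `K2aPow R m`      : the masses `m k : ℝ≥0∞` are power small  (`k2a_pow_iff` : the same as `KbPow` of `massOf` for an `Ok` problem).
* `K2aRel E ℓ₁ ℓ₂ e` : typically `dn ℓ₁ ≤ N^{e + o(1)} dn ℓ₂`.      ALL comparisons of exponents go through the three rules `k2a_rel_exp_le`, `k2a_rel_up`, `k2a_rel_lo`, which rest on `k2a_point` (an `Ok` problem has mass `≥ N^{-τ}`, so a typical incidence exists).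
* homogenisation: `k2a_stage` (one stage `M` : the first `M` grid points, tolerance `1/(M+1)`; from `k2a_homog_core`) → `R255.ulim_diag` → `k2a_grid` (typical densities at all grid points) → `k2a_typ_squeeze` (all depths).   No subsequence, no Cantor diagonal, no flattening.
-/

set_option autoImplicit false

namespace Claimed.Agent.R252

open MeasureTheory Filter Topology
open Claimed.Agent.R255 (uf ulim UBdd)
open scoped ENNReal BigOperators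

noncomputable section

variable {v : KbVer} {D D₁ D₂ D' : Type}

/-! ## 1. Leaf L-252-K2A-SEQ-1 : power small masses -/

/-- power small, for `ℝ≥0∞`-valued masses -/
def K2aPow (R : KbRes) (m : ℕ → ℝ≥0∞) : Prop := ∃ c : ℝ, 0 < c ∧ ∀ᶠ k in uf, m k ≤ ENNReal.ofReal (R.N k ^ (-c))

/-- the masses of a sequence of families of incidence sets -/
def k2aM (E : KbEx v) (A : E.Sel) : ℕ → ℝ≥0∞ := fun k => (E.P k).mass (A k)

theorem k2a_ok_wf {E : KbEx v} (hE : E.Ok) : ∀ᶠ k in uf, (E.P k).WF := by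
  obtain ⟨-, ⟨M, hM⟩, -⟩ := hE
  exact hM.mono fun k hk => hk.1

theorem k2a_sq_ofReal_mul (R : KbRes) (k : ℕ) (a b : ℝ) : ENNReal.ofReal (R.N k ^ a) * ENNReal.ofReal (R.N k ^ b) = ENNReal.ofReal (R.N k ^ (a + b)) := by
  rw [← ENNReal.ofReal_mul (Real.rpow_pos_of_pos (kb_res_pos R k) _).le, ← Real.rpow_add (kb_res_pos R k)]

theorem k2a_sq_ofReal_mono (R : KbRes) (k : ℕ) {a b : ℝ} (h : a ≤ b) : ENNReal.ofReal (R.N k ^ a) ≤ ENNReal.ofReal (R.N k ^ b) :=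
  ENNReal.ofReal_le_ofReal (Real.rpow_le_rpow_of_exponent_le (kb_res_one_le R k) h)

theorem k2a_sq_ofReal_le_iff (R : KbRes) (k : ℕ) {a b : ℝ} : ENNReal.ofReal (R.N k ^ a) ≤ ENNReal.ofReal (R.N k ^ b) ↔ a ≤ b := by
  rw [ENNReal.ofReal_le_ofReal_iff (Real.rpow_pos_of_pos (kb_res_pos R k) _).le]
  exact kb_L3_rpow_le_iff R k

theorem k2a_sq_mass_ne_top {P : KbPb v} (hP : P.WF) (A : P.W → Set (P.Lam × ℝ)) : P.mass A ≠ ⊤ :=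
  ((k2a_mass_mono (A' := fun _ => Set.univ) fun γ => Set.subset_univ (A γ)).trans_lt ((k2a_tot_le hP).trans_lt ENNReal.one_lt_top)).ne

theorem k2a_pow_iff {E : KbEx v} (hE : E.Ok) (A : E.Sel) : KbPow E.R (E.massOf A) ↔ K2aPow E.R (k2aM E A) := by
  have key : ∀ c : ℝ, (∀ᶠ k in uf, E.massOf A k ≤ E.R.N k ^ (-c)) ↔ ∀ᶠ k in uf, k2aM E A k ≤ ENNReal.ofReal (E.R.N k ^ (-c)) := by
    intro c
    refine eventually_congr ?_
    filter_upwards [k2a_ok_wf hE] with k hk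
    exact (ENNReal.le_ofReal_iff_toReal_le (k2a_sq_mass_ne_top hk (A k)) (Real.rpow_pos_of_pos (kb_res_pos E.R k) _).le).symm
  constructor
  · rintro ⟨c, hc, h⟩
    exact ⟨c, hc, (key c).1 h⟩
  · rintro ⟨c, hc, h⟩
    exact ⟨c, hc, (key c).2 h⟩

theorem k2a_pow_mono {R : KbRes} {m m' : ℕ → ℝ≥0∞} (h : ∀ᶠ k in uf, m k ≤ m' k) (h' : K2aPow R m') : K2aPow R m := by
  obtain ⟨c, hc, h2⟩ := h'
  refine ⟨c, hc, ?_⟩
  filter_upwards [h, h2] with k a b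
  exact a.trans b

theorem k2a_pow_zero {R : KbRes} {m : ℕ → ℝ≥0∞} (h : ∀ᶠ k in uf, m k = 0) : K2aPow R m := by
  refine ⟨1, one_pos, ?_⟩
  filter_upwards [h] with k hk
  rw [hk]
  exact zero_le

theorem k2a_sq_pow_rpow {R : KbRes} {m : ℕ → ℝ≥0∞} (C : ℝ) {c : ℝ} (hc : 0 < c) (h : ∀ᶠ k in uf, m k ≤ ENNReal.ofReal (C * R.N k ^ (-c))) : K2aPow R m := by
  refine ⟨c / 2, half_pos hc, ?_⟩
  filter_upwards [h, (kb_rpow_tendsto R (half_pos hc)).eventually_ge_atTop C] with k hk hC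
  refine hk.trans (ENNReal.ofReal_le_ofReal ?_)
  calc C * R.N k ^ (-c) ≤ R.N k ^ (c / 2) * R.N k ^ (-c) := mul_le_mul_of_nonneg_right hC (Real.rpow_pos_of_pos (kb_res_pos R k) _).le
    _ = R.N k ^ (-(c / 2)) := by
        rw [← Real.rpow_add (kb_res_pos R k)]
        congr 1
        ring

theorem k2a_pow_add {R : KbRes} {m m' : ℕ → ℝ≥0∞} (h : K2aPow R m) (h' : K2aPow R m') : K2aPow R fun k => m k + m' k := by
  obtain ⟨c, hc, h1⟩ := h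
  obtain ⟨c', hc', h2⟩ := h'
  refine k2a_sq_pow_rpow 2 (lt_min hc hc') ?_
  filter_upwards [h1, h2] with k a b
  have hp : 0 ≤ R.N k ^ (-(min c c')) := (Real.rpow_pos_of_pos (kb_res_pos R k) _).le
  rw [two_mul, ENNReal.ofReal_add hp hp]
  exact add_le_add (a.trans (k2a_sq_ofReal_mono R k (neg_le_neg (min_le_left _ _)))) (b.trans (k2a_sq_ofReal_mono R k (neg_le_neg (min_le_right _ _))))

theorem k2a_pow_const_mul {R : KbRes} {m : ℕ → ℝ≥0∞} {C : ℝ≥0∞} (hC : C ≠ ⊤) (h : K2aPow R m) : K2aPow R fun k => C * m k := by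
  obtain ⟨c, hc, h1⟩ := h
  refine k2a_sq_pow_rpow C.toReal hc ?_
  filter_upwards [h1] with k a
  rw [ENNReal.ofReal_mul ENNReal.toReal_nonneg, ENNReal.ofReal_toReal hC]
  exact mul_le_mul_right a _

/-- `C N^{-c}`, `c > 0`, is power small -/
theorem k2a_pow_rpow {R : KbRes} {m : ℕ → ℝ≥0∞} (C : ℝ) {c : ℝ} (hc : 0 < c) (h : ∀ᶠ k in uf, m k ≤ ENNReal.ofReal (C * R.N k ^ (-c))) : K2aPow R m := by
  exact k2a_sq_pow_rpow C hc h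

/-- **a typical incidence exists**: outside a power small family of sets, and with any almost sure property -/
theorem k2a_point {E : KbEx v} (hE : E.Ok) {A : E.Sel} (hA : K2aPow E.R (k2aM E A)) {p : ∀ k, (E.P k).W → (E.P k).Lam × ℝ → Prop}
    (hp : ∀ᶠ k in uf, ∀ γ, ∀ᵐ x ∂(E.P k).mu γ, p k γ x) : ∀ᶠ k in uf, ∃ γ x, x ∉ A k γ ∧ p k γ x := by
  obtain ⟨c, hc, h1⟩ := hA
  filter_upwards [h1, hp, hE.2.2 (c / 2) (half_pos hc)] with k a b hN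
  by_contra hcon
  have h2 : ∀ γ x, p k γ x → x ∈ A k γ := by
    intro γ x hx
    by_contra hxA
    exact hcon ⟨γ, x, hxA, hx⟩
  have h3 : (E.P k).tot ≤ (E.P k).mass (A k) :=
    k2a_mass_mono_ae fun γ => (b γ).mono fun x hx _ => h2 γ x hx
  have h4 : (1 : ℝ≥0∞) ≤ ENNReal.ofReal (E.R.N k ^ (-(c / 2))) := by
    calc (1 : ℝ≥0∞) ≤ ENNReal.ofReal (E.R.N k ^ (c / 2)) * (E.P k).tot := hN.mass
      _ ≤ ENNReal.ofReal (E.R.N k ^ (c / 2)) * ENNReal.ofReal (E.R.N k ^ (-c)) := mul_le_mul_right (h3.trans a) _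
      _ = ENNReal.ofReal (E.R.N k ^ (-(c / 2))) := by
          rw [k2a_sq_ofReal_mul]
          congr 2
          ring
  have h5 : E.R.N k ^ (-(c / 2)) < 1 := Real.rpow_lt_one_of_one_lt_of_neg (kb_L3_one_lt E.R k) (by linarith)
  rw [← ENNReal.ofReal_one, ENNReal.ofReal_le_ofReal_iff (Real.rpow_pos_of_pos (kb_res_pos E.R k) _).le] at h4
  linarith

/-! ## 2. Leaf L-252-K2A-SEQ-2 : the relation `dn ℓ₁ ≲ N^e dn ℓ₂` -/

/-- typically `dn ℓ₁ ≤ N^{e + o(1)} dn ℓ₂` -/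
def K2aRel (E : KbEx v) (ℓ₁ : E.Lab D₁) (ℓ₂ : E.Lab D₂) (e : ℝ) : Prop :=
  ∀ τ : ℝ, 0 < τ → K2aPow E.R fun k => (E.P k).mass fun γ => {x | ENNReal.ofReal (E.R.N k ^ (e + τ)) * (E.P k).dn (ℓ₂ k) γ x < (E.P k).dn (ℓ₁ k) γ x}

theorem k2a_up_iff {E : KbEx v} (hE : E.Ok) (ℓ : E.Lab D) (f : ℝ) :
    E.TypUp ℓ f ↔ ∀ τ : ℝ, 0 < τ → K2aPow E.R fun k => (E.P k).mass ((E.P k).above (ℓ k) (E.R.N k ^ (-f + τ))) := by
  exact forall_congr' fun τ => forall_congr' fun _ => k2a_pow_iff hE _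

theorem k2a_lo_iff {E : KbEx v} (hE : E.Ok) (ℓ : E.Lab D) (f : ℝ) :
    E.TypLo ℓ f ↔ ∀ τ : ℝ, 0 < τ → K2aPow E.R fun k => (E.P k).mass ((E.P k).below (ℓ k) (E.R.N k ^ (-f - τ))) := by
  exact forall_congr' fun τ => forall_congr' fun _ => k2a_pow_iff hE _

/-- a family covered by two power small families -/
theorem k2a_sq_pow_cover {E : KbEx v} {A B C : E.Sel} (hB : K2aPow E.R fun k => (E.P k).mass (B k)) (hC : K2aPow E.R fun k => (E.P k).mass (C k))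
    (h : ∀ k γ x, x ∈ A k γ → x ∈ B k γ ∨ x ∈ C k γ) : K2aPow E.R fun k => (E.P k).mass (A k) := by
  refine k2a_pow_mono (Eventually.of_forall fun k => ?_) (k2a_pow_add hB hC)
  exact (k2a_mass_mono fun γ x hx => h k γ x hx).trans (k2a_mass_union _ _)

theorem k2a_rel_of_ae {E : KbEx v} (ℓ₁ : E.Lab D₁) (ℓ₂ : E.Lab D₂)
    (h : ∀ᶠ k in uf, ∀ γ, ∀ᵐ x ∂(E.P k).mu γ, (E.P k).dn (ℓ₁ k) γ x ≤ (E.P k).dn (ℓ₂ k) γ x) : K2aRel E ℓ₁ ℓ₂ 0 := by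
  intro τ hτ
  refine k2a_pow_zero ?_
  filter_upwards [h] with k hk
  have h0 : (E.P k).mass (fun _ => (∅ : Set ((E.P k).Lam × ℝ))) = 0 := by simp [KbPb.mass]
  refine le_antisymm ?_ zero_le
  rw [← h0]
  refine k2a_mass_mono_ae fun γ => (hk γ).mono fun x hx hx' => ?_
  exfalso
  have h1 : (1 : ℝ≥0∞) ≤ ENNReal.ofReal (E.R.N k ^ (0 + τ)) := by
    rw [← ENNReal.ofReal_one]
    exact ENNReal.ofReal_le_ofReal (Real.one_le_rpow (kb_res_one_le E.R k) (by linarith))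
  have h2 : (E.P k).dn (ℓ₂ k) γ x ≤ ENNReal.ofReal (E.R.N k ^ (0 + τ)) * (E.P k).dn (ℓ₂ k) γ x := by
    calc (E.P k).dn (ℓ₂ k) γ x = 1 * (E.P k).dn (ℓ₂ k) γ x := (one_mul _).symm
      _ ≤ _ := mul_le_mul_left h1 _
  exact absurd (lt_of_lt_of_le hx' (hx.trans h2)) (lt_irrefl _)

theorem k2a_rel_refl (E : KbEx v) (ℓ : E.Lab D) : K2aRel E ℓ ℓ 0 :=
  k2a_rel_of_ae ℓ ℓ (Eventually.of_forall fun _ _ => Eventually.of_forall fun _ => le_rfl)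

/-- at a typical incidence `N^{-f₁-τ} ≤ dn ℓ₁ ≤ N^{e+τ} dn ℓ₂ ≤ N^{e+τ} N^{-f₂+τ}` -/
theorem k2a_rel_exp_le {E : KbEx v} (hE : E.Ok) {ℓ₁ : E.Lab D₁} {ℓ₂ : E.Lab D₂} {e f₁ f₂ : ℝ} (h : K2aRel E ℓ₁ ℓ₂ e) (h₁ : E.TypLo ℓ₁ f₁) (h₂ : E.TypUp ℓ₂ f₂) :
    f₂ ≤ f₁ + e := by
  by_contra hcon
  have hlt : f₁ + e < f₂ := not_le.mp hcon
  obtain ⟨τ, hτd⟩ : ∃ τ : ℝ, τ = (f₂ - f₁ - e) / 4 := ⟨_, rfl⟩
  have hτ : 0 < τ := by rw [hτd]; linarith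
  have a1 := h τ hτ
  have a2 := (k2a_lo_iff hE ℓ₁ f₁).1 h₁ τ hτ
  have a3 := (k2a_up_iff hE ℓ₂ f₂).1 h₂ τ hτ
  have a4 : K2aPow E.R (k2aM E fun k γ => ({x | ENNReal.ofReal (E.R.N k ^ (e + τ)) * (E.P k).dn (ℓ₂ k) γ x < (E.P k).dn (ℓ₁ k) γ x} ∪
      (E.P k).below (ℓ₁ k) (E.R.N k ^ (-f₁ - τ)) γ) ∪ (E.P k).above (ℓ₂ k) (E.R.N k ^ (-f₂ + τ)) γ) := by
    refine k2a_pow_mono (Eventually.of_forall fun k => ?_) (k2a_pow_add (k2a_pow_add a1 a2) a3)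
    exact (k2a_mass_union _ _).trans (add_le_add_left (k2a_mass_union _ _) _)
  have a5 := k2a_point hE a4 (p := fun _ _ _ => True) (Eventually.of_forall fun _ _ => Eventually.of_forall fun _ => trivial)
  have := Claimed.Agent.R255.uf_neBot
  obtain ⟨k, γ, x, hx, -⟩ := a5.exists
  simp only [Set.mem_union, not_or] at hx
  obtain ⟨⟨b1, b2⟩, b3⟩ := hx
  have c1 : (E.P k).dn (ℓ₁ k) γ x ≤ ENNReal.ofReal (E.R.N k ^ (e + τ)) * (E.P k).dn (ℓ₂ k) γ x := not_lt.mp b1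
  have c2 : ENNReal.ofReal (E.R.N k ^ (-f₁ - τ)) ≤ (E.P k).dn (ℓ₁ k) γ x := not_lt.mp b2
  have c3 : (E.P k).dn (ℓ₂ k) γ x ≤ ENNReal.ofReal (E.R.N k ^ (-f₂ + τ)) := not_lt.mp b3
  have c4 : ENNReal.ofReal (E.R.N k ^ (-f₁ - τ)) ≤ ENNReal.ofReal (E.R.N k ^ ((e + τ) + (-f₂ + τ))) := by
    rw [← k2a_sq_ofReal_mul]
    exact c2.trans (c1.trans (mul_le_mul_right c3 _))
  rw [k2a_sq_ofReal_le_iff] at c4
  rw [hτd] at c4
  linarith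

theorem k2a_rel_up {E : KbEx v} (hE : E.Ok) {ℓ₁ : E.Lab D₁} {ℓ₂ : E.Lab D₂} {e f : ℝ} (h : K2aRel E ℓ₁ ℓ₂ e) (h₂ : E.TypUp ℓ₂ f) : E.TypUp ℓ₁ (f - e) := by
  rw [k2a_up_iff hE]
  intro τ hτ
  refine k2a_sq_pow_cover (h (τ / 2) (half_pos hτ)) ((k2a_up_iff hE ℓ₂ f).1 h₂ (τ / 2) (half_pos hτ)) fun k γ x hx => ?_
  by_contra hcon
  rw [not_or] at hcon
  have c1 : (E.P k).dn (ℓ₁ k) γ x ≤ ENNReal.ofReal (E.R.N k ^ (e + τ / 2)) * (E.P k).dn (ℓ₂ k) γ x := not_lt.mp hcon.1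
  have c3 : (E.P k).dn (ℓ₂ k) γ x ≤ ENNReal.ofReal (E.R.N k ^ (-f + τ / 2)) := not_lt.mp hcon.2
  have c4 : (E.P k).dn (ℓ₁ k) γ x ≤ ENNReal.ofReal (E.R.N k ^ (-(f - e) + τ)) := by
    have e1 : -(f - e) + τ = (e + τ / 2) + (-f + τ / 2) := by ring
    rw [e1, ← k2a_sq_ofReal_mul]
    exact c1.trans (mul_le_mul_right c3 _)
  exact absurd (lt_of_lt_of_le hx c4) (lt_irrefl _)

theorem k2a_rel_lo {E : KbEx v} (hE : E.Ok) {ℓ₁ : E.Lab D₁} {ℓ₂ : E.Lab D₂} {e f : ℝ} (h : K2aRel E ℓ₁ ℓ₂ e) (h₁ : E.TypLo ℓ₁ f) : E.TypLo ℓ₂ (f + e) := by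
  rw [k2a_lo_iff hE]
  intro τ hτ
  refine k2a_sq_pow_cover (h (τ / 2) (half_pos hτ)) ((k2a_lo_iff hE ℓ₁ f).1 h₁ (τ / 2) (half_pos hτ)) fun k γ x hx => ?_
  by_contra hcon
  rw [not_or] at hcon
  have c1 : (E.P k).dn (ℓ₁ k) γ x ≤ ENNReal.ofReal (E.R.N k ^ (e + τ / 2)) * (E.P k).dn (ℓ₂ k) γ x := not_lt.mp hcon.1
  have c2 : ENNReal.ofReal (E.R.N k ^ (-f - τ / 2)) ≤ (E.P k).dn (ℓ₁ k) γ x := not_lt.mp hcon.2
  have hx' : (E.P k).dn (ℓ₂ k) γ x < ENNReal.ofReal (E.R.N k ^ (-(f + e) - τ)) := hx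
  have c4 : ENNReal.ofReal (E.R.N k ^ (e + τ / 2)) * (E.P k).dn (ℓ₂ k) γ x < ENNReal.ofReal (E.R.N k ^ (-f - τ / 2)) := by
    have e1 : -f - τ / 2 = (e + τ / 2) + (-(f + e) - τ) := by ring
    rw [e1, ← k2a_sq_ofReal_mul E.R k (e + τ / 2) (-(f + e) - τ)]
    exact ENNReal.mul_lt_mul_right (ENNReal.ofReal_pos.2 (Real.rpow_pos_of_pos (kb_res_pos E.R k) _)).ne' ENNReal.ofReal_ne_top hx'
  exact absurd (lt_of_lt_of_le c4 (c2.trans c1)) (lt_irrefl _)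

theorem k2a_up_mono {E : KbEx v} (hE : E.Ok) {ℓ : E.Lab D} {f f' : ℝ} (hf : f' ≤ f) (h : E.TypUp ℓ f) : E.TypUp ℓ f' := by
  rw [k2a_up_iff hE] at h ⊢
  intro τ hτ
  refine k2a_pow_mono (Eventually.of_forall fun k => ?_) (h τ hτ)
  refine k2a_mass_mono fun γ x hx => ?_
  exact lt_of_le_of_lt (k2a_sq_ofReal_mono E.R k (by linarith)) hx

theorem k2a_lo_mono {E : KbEx v} (hE : E.Ok) {ℓ : E.Lab D} {f f' : ℝ} (hf : f ≤ f') (h : E.TypLo ℓ f) : E.TypLo ℓ f' := by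
  rw [k2a_lo_iff hE] at h ⊢
  intro τ hτ
  refine k2a_pow_mono (Eventually.of_forall fun k => ?_) (h τ hτ)
  refine k2a_mass_mono fun γ x hx => ?_
  exact lt_of_lt_of_le hx (k2a_sq_ofReal_mono E.R k (by linarith))

/-- two labels with `ℓ₁ ≲ ℓ₂ ≲ ℓ₁` have the same typical exponent -/
theorem k2a_rel_typ {E : KbEx v} (hE : E.Ok) {ℓ₁ : E.Lab D₁} {ℓ₂ : E.Lab D₂} {f : ℝ} (h : K2aRel E ℓ₁ ℓ₂ 0) (h' : K2aRel E ℓ₂ ℓ₁ 0) (h₁ : E.Typ ℓ₁ f) : E.Typ ℓ₂ f := by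
  refine ⟨?_, ?_⟩
  · have := k2a_rel_up hE h' h₁.1
    rwa [sub_zero] at this
  · have := k2a_rel_lo hE h h₁.2
    rwa [add_zero] at this

/-- **squeeze**: upper exponents `lo` and lower exponents `hi` with `hi - lo` arbitrarily small.   (`f = sSup {f₂ | TypUp ℓ f₂}`; every upper exponent is `≤` every lower exponent by `k2a_rel_exp_le` with `k2a_rel_refl`.) -/
theorem k2a_typ_squeeze {E : KbEx v} (hE : E.Ok) (ℓ : E.Lab D) (h : ∀ δ : ℝ, 0 < δ → ∃ lo hi : ℝ, hi - lo ≤ δ ∧ E.TypUp ℓ lo ∧ E.TypLo ℓ hi) : ∃ f, E.Typ ℓ f := by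
  have hle : ∀ a b : ℝ, E.TypUp ℓ a → E.TypLo ℓ b → a ≤ b := by
    intro a b ha hb
    have := k2a_rel_exp_le hE (k2a_rel_refl E ℓ) hb ha
    linarith
  obtain ⟨lo₀, hi₀, -, hlo₀, hhi₀⟩ := h 1 one_pos
  have hbdd : BddAbove {a : ℝ | E.TypUp ℓ a} := ⟨hi₀, fun a ha => hle a hi₀ ha hhi₀⟩
  refine ⟨sSup {a : ℝ | E.TypUp ℓ a}, ?_, ?_⟩
  · rw [k2a_up_iff hE]
    intro τ hτ
    obtain ⟨lo, hi, hd, hlo, hhi⟩ := h (τ / 2) (half_pos hτ)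
    have h1 : sSup {a : ℝ | E.TypUp ℓ a} ≤ hi := csSup_le ⟨lo₀, hlo₀⟩ fun a ha => hle a hi ha hhi
    refine k2a_pow_mono (Eventually.of_forall fun k => ?_) ((k2a_up_iff hE ℓ lo).1 hlo (τ / 2) (half_pos hτ))
    refine k2a_mass_mono fun γ x hx => ?_
    exact lt_of_le_of_lt (k2a_sq_ofReal_mono E.R k (by linarith)) hx
  · rw [k2a_lo_iff hE]
    intro τ hτ
    obtain ⟨lo, hi, hd, hlo, hhi⟩ := h (τ / 2) (half_pos hτ)
    have h1 : lo ≤ sSup {a : ℝ | E.TypUp ℓ a} := le_csSup hbdd hlo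
    refine k2a_pow_mono (Eventually.of_forall fun k => ?_) ((k2a_lo_iff hE ℓ hi).1 hhi (τ / 2) (half_pos hτ))
    refine k2a_mass_mono fun γ x hx => ?_
    exact lt_of_lt_of_le hx (k2a_sq_ofReal_mono E.R k (by linarith))

/-! ## 3. Leaf L-252-K2A-SEQ-3 : the easy hubs -/

theorem k2a_hub_typ_unique (E : KbEx v) (hE : E.Ok) (ℓ : E.Lab D) (f f' : ℝ) (h : E.Typ ℓ f) (h' : E.Typ ℓ f') : f = f' := by
  have h1 := k2a_rel_exp_le hE (k2a_rel_refl E ℓ) h.2 h'.1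
  have h2 := k2a_rel_exp_le hE (k2a_rel_refl E ℓ) h'.2 h.1
  linarith

/-- (`k2a_sel_wf`, `k2a_sel_tmp`, `k2a_sel_ntv`) -/
theorem k2a_hub_sel_ok (E : KbEx v) (hE : E.Ok) (S : E.Sel) (hSm : ∀ᶠ k in uf, ∀ γ, MeasurableSet (S k γ))
    (hSd : ∀ τ : ℝ, 0 < τ → ∀ᶠ k in uf, 1 ≤ ENNReal.ofReal (E.R.N k ^ τ) * (E.P k).mass (S k)) : (E.sel S).Ok := by
  obtain ⟨hL, ⟨M, hM⟩, hN⟩ := hE
  refine ⟨hL, ⟨M, ?_⟩, fun τ hτ => ?_⟩
  · filter_upwards [hM, hSm] with k hk hs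
    exact ⟨k2a_sel_wf hk.1 hs, k2a_sel_tmp hk.2 _⟩
  · filter_upwards [hM, hSm, hN τ hτ, hSd τ hτ] with k hk hs hn hd
    exact k2a_sel_ntv hk.1 hn le_rfl hs hd

theorem k2a_pow_toReal {R : KbRes} {m : ℕ → ℝ≥0∞} (h : K2aPow R m) : KbPow R fun k => (m k).toReal := by
  obtain ⟨c, hc, hk⟩ := h
  exact ⟨c, hc, hk.mono fun k hk => ENNReal.toReal_le_of_le_ofReal (Real.rpow_nonneg (kb_res_pos R k).le _) hk⟩

/-- (`k2a_sel_above`; `k2a_sel_below` with `ε = N^{-τ/2}`.   `E.sel S` need not be `Ok`: work with `KbPow`/`massOf` of `E.sel S` directly, its masses are `≤ 1`.) -/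
theorem k2a_hub_typ_sel (E : KbEx v) (hE : E.Ok) [Countable D] (ℓ : E.Lab D) (hℓ : ∀ᶠ k in uf, (E.P k).LabMeas (ℓ k)) (f : ℝ) (h : E.Typ ℓ f)
    (S : E.Sel) (hS : ∀ᶠ k in uf, ∀ γ, MeasurableSet (S k γ)) : (E.sel S).Typ ℓ f := by
  have hW := k2a_ok_wf hE
  constructor
  · intro τ hτ
    have h1 := (k2a_pow_iff hE _).1 (h.1 τ hτ)
    refine k2a_pow_toReal (R := E.R) (m := fun k => ((E.P k).sel (S k)).mass
      (((E.P k).sel (S k)).above (ℓ k) (E.R.N k ^ (-f + τ)))) (k2a_pow_mono ?_ h1)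
    filter_upwards [hW, hℓ, hS] with k hP hl hs
    exact k2a_sel_above hP hs hl _
  · intro τ hτ
    have h1 := (k2a_pow_iff hE _).1 (h.2 (τ / 2) (by linarith))
    have h2 : K2aPow E.R fun k => ENNReal.ofReal (E.R.N k ^ (-(τ / 2))) :=
      ⟨τ / 2, by linarith, Eventually.of_forall fun k => le_rfl⟩
    refine k2a_pow_toReal (R := E.R) (m := fun k => ((E.P k).sel (S k)).mass
      (((E.P k).sel (S k)).below (ℓ k) (E.R.N k ^ (-f - τ)))) (k2a_pow_mono ?_ (k2a_pow_add h2 h1))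
    filter_upwards [hW, hℓ, hS] with k hP hl hs
    have h3 := k2a_sel_below hP hs hl (ε := E.R.N k ^ (-(τ / 2))) (lo := E.R.N k ^ (-f - τ / 2))
      (Real.rpow_nonneg (kb_res_pos E.R k).le _) (Real.rpow_nonneg (kb_res_pos E.R k).le _)
    rw [← Real.rpow_add (kb_res_pos E.R k), show -(τ / 2) + (-f - τ / 2) = -f - τ by ring] at h3
    refine h3.trans (add_le_add ?_ le_rfl)
    calc ENNReal.ofReal (E.R.N k ^ (-(τ / 2))) * (E.P k).tot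
        ≤ ENNReal.ofReal (E.R.N k ^ (-(τ / 2))) * 1 := mul_le_mul' le_rfl (k2a_tot_le hP)
      _ = _ := mul_one _

/-- (`k2a_lpair_le`, `k2a_list_small` with `ε = N^{-τ}`, lists of size `≤ N^{τ/2}`; `k2a_rel_typ`) -/
theorem k2a_hub_typ_refine (E : KbEx v) (hE : E.Ok) [Countable D] [Countable D'] (ℓ : E.Lab D) (ℓ' : E.Lab D') (hℓ : ∀ᶠ k in uf, (E.P k).LabMeas (ℓ k))
    (hℓ' : ∀ᶠ k in uf, (E.P k).LabMeas (ℓ' k)) (f : ℝ) (h : E.Typ ℓ f)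
    (hl : ∀ τ : ℝ, 0 < τ → ∀ᶠ k in uf, ∃ Lst : (E.P k).W → D → ℝ × KbB v → Finset D', (∀ γ d o, ((Lst γ d o).card : ℝ) ≤ E.R.N k ^ τ) ∧
      (∀ γ d d', MeasurableSet {o | d' ∈ Lst γ d o}) ∧ ∀ γ, ∀ x ∈ (E.P k).Ev γ, ℓ' k γ x ∈ Lst γ (ℓ k γ x) ((E.P k).bs γ x)) :
    E.Typ (fun k => (E.P k).lpair (ℓ k) (ℓ' k)) f := by
  have hW := k2a_ok_wf hE
  refine k2a_rel_typ hE (ℓ₁ := ℓ) (ℓ₂ := fun k => (E.P k).lpair (ℓ k) (ℓ' k)) ?_ ?_ h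
  · intro τ hτ
    refine ⟨τ / 2, by linarith, ?_⟩
    filter_upwards [hW, hℓ, hℓ', hl (τ / 2) (by linarith)] with k hP h1 h2 h3
    obtain ⟨Lst, hc, hm, hmem⟩ := h3
    have hN := kb_res_pos E.R k
    have h4 := k2a_list_small hP h1 h2 Lst ⌊E.R.N k ^ (τ / 2)⌋₊ (fun γ d o => Nat.le_floor (hc γ d o)) hm hmem
      (ENNReal.ofReal (E.R.N k ^ (-τ)))
    have h5 : (E.P k).mass (fun γ => {x | ENNReal.ofReal (E.R.N k ^ (0 + τ)) * (E.P k).dn ((E.P k).lpair (ℓ k) (ℓ' k)) γ x <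
        (E.P k).dn (ℓ k) γ x}) ≤ (E.P k).mass (fun γ => {x | (E.P k).dn ((E.P k).lpair (ℓ k) (ℓ' k)) γ x <
          ENNReal.ofReal (E.R.N k ^ (-τ)) * (E.P k).dn (ℓ k) γ x}) := by
      refine k2a_mass_mono fun γ x hx => ?_
      have hx' : ENNReal.ofReal (E.R.N k ^ (0 + τ)) * (E.P k).dn ((E.P k).lpair (ℓ k) (ℓ' k)) γ x <
        (E.P k).dn (ℓ k) γ x := hx
      show (E.P k).dn ((E.P k).lpair (ℓ k) (ℓ' k)) γ x < ENNReal.ofReal (E.R.N k ^ (-τ)) * (E.P k).dn (ℓ k) γ x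
      have e1 : ENNReal.ofReal (E.R.N k ^ (-τ)) * ENNReal.ofReal (E.R.N k ^ (0 + τ)) = 1 := by
        rw [← ENNReal.ofReal_mul (Real.rpow_nonneg hN.le _), ← Real.rpow_add hN]
        simp
      have e2 : ENNReal.ofReal (E.R.N k ^ (-τ)) ≠ 0 := by
        rw [Ne, ENNReal.ofReal_eq_zero, not_le]
        exact Real.rpow_pos_of_pos hN _
      calc (E.P k).dn ((E.P k).lpair (ℓ k) (ℓ' k)) γ x
          = ENNReal.ofReal (E.R.N k ^ (-τ)) * (ENNReal.ofReal (E.R.N k ^ (0 + τ)) *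
              (E.P k).dn ((E.P k).lpair (ℓ k) (ℓ' k)) γ x) := by rw [← mul_assoc, e1, one_mul]
        _ < ENNReal.ofReal (E.R.N k ^ (-τ)) * (E.P k).dn (ℓ k) γ x :=
            ENNReal.mul_lt_mul_right e2 ENNReal.ofReal_ne_top hx'
    refine h5.trans (h4.trans ?_)
    have e3 : ((⌊E.R.N k ^ (τ / 2)⌋₊ : ℕ) : ℝ≥0∞) ≤ ENNReal.ofReal (E.R.N k ^ (τ / 2)) := by
      rw [← ENNReal.ofReal_natCast]
      exact ENNReal.ofReal_le_ofReal (Nat.floor_le (Real.rpow_nonneg hN.le _))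
    calc ENNReal.ofReal (E.R.N k ^ (-τ)) * (⌊E.R.N k ^ (τ / 2)⌋₊ : ℕ) * (E.P k).tot
        ≤ ENNReal.ofReal (E.R.N k ^ (-τ)) * ENNReal.ofReal (E.R.N k ^ (τ / 2)) * 1 :=
          mul_le_mul' (mul_le_mul' le_rfl e3) (k2a_tot_le hP)
      _ = ENNReal.ofReal (E.R.N k ^ (-(τ / 2))) := by
          rw [mul_one, ← ENNReal.ofReal_mul (Real.rpow_nonneg hN.le _), ← Real.rpow_add hN]
          congr 2
          ring
  · exact k2a_rel_of_ae _ _ (hW.mono fun k hP γ => k2a_lpair_le hP (ℓ k) (ℓ' k) γ)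

theorem k2a_hub_hom_sel (E : KbEx v) (hE : E.Ok) (f : ℝ → ℝ → ℝ) (h : E.Hom f) (S : E.Sel) (hSm : ∀ᶠ k in uf, ∀ γ, MeasurableSet (S k γ)) : (E.sel S).Hom f := by
  have hW := k2a_ok_wf hE
  refine ⟨fun r hr => ?_, fun r hr u hu => ?_⟩
  · exact k2a_hub_typ_sel E hE (E.hid r) (hW.mono fun k hP => k2a_hid_meas hP _) _ (h.pure r hr) S hSm
  · exact k2a_hub_typ_sel E hE (E.hv r u) (hW.mono fun k hP => k2a_hv_meas hP _ _) _ (h.joint r hr u hu) S hSm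

theorem k2a_hub_cap_sel (E : KbEx v) (d S₀ η : ℝ) (f : ℝ → ℝ → ℝ) (h : E.Cap d S₀ η f) (S : E.Sel) (hSm : ∀ᶠ k in uf, ∀ γ, MeasurableSet (S k γ))
    (hSd : ∀ τ : ℝ, 0 < τ → ∀ᶠ k in uf, 1 ≤ ENNReal.ofReal (E.R.N k ^ τ) * (E.P k).mass (S k)) : (E.sel S).Cap d S₀ η f := by
  exact ⟨k2a_hub_sel_ok E h.ok S hSm hSd, k2a_hub_hom_sel E h.ok f h.hom S hSm, h.d_lt, h.endp, h.ang⟩

/-! ## 4. Leaf L-252-K2A-SEQ-4 : relations between the observations `(p_r, [V]_u)`; the profile -/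

theorem k2a_a_pos (E : KbEx v) (r : ℝ) (k : ℕ) : 0 < E.a r k := Real.rpow_pos_of_pos (kb_res_pos E.R k) _

theorem k2a_a_anti (E : KbEx v) {r r' : ℝ} (h : r ≤ r') (k : ℕ) : E.a r' k ≤ E.a r k :=
  Real.rpow_le_rpow_of_exponent_le (kb_res_one_le E.R k) (by linarith)

theorem k2a_a_zero (E : KbEx v) (k : ℕ) : E.a 0 k = 1 := by
  simp [KbEx.a]

/-- (`k2a_hv_mono`) -/
theorem k2a_rel_hv_mono {E : KbEx v} (hE : E.Ok) {r r' u u' : ℝ} (hr : r ≤ r') (hu : u ≤ u') : K2aRel E (E.hv r' u') (E.hv r u) 0 := by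
  refine k2a_rel_of_ae _ _ ((k2a_ok_wf hE).mono fun k hk γ => ?_)
  exact k2a_hv_mono hk (k2a_a_pos E r' k) (k2a_a_anti E hr k) (k2a_a_pos E u' k) (k2a_a_anti E hu k) γ

theorem k2a_s4_flip {N e : ℝ} (hN : 0 < N) {X Y : ℝ≥0∞} (h : ENNReal.ofReal (N ^ e) * X < Y) :
    X < ENNReal.ofReal (N ^ (-e)) * Y := by
  have hp : 0 < N ^ (-e) := Real.rpow_pos_of_pos hN _
  have h1 : ENNReal.ofReal (N ^ (-e)) * (ENNReal.ofReal (N ^ e) * X) = X := by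
    rw [← mul_assoc, ← ENNReal.ofReal_mul hp.le, ← Real.rpow_add hN]
    simp
  calc X = ENNReal.ofReal (N ^ (-e)) * (ENNReal.ofReal (N ^ e) * X) := h1.symm
    _ < ENNReal.ofReal (N ^ (-e)) * Y :=
      ENNReal.mul_lt_mul_right (by simpa using hp) ENNReal.ofReal_ne_top h

theorem k2a_s4_a_div (E : KbEx v) (r r' : ℝ) (k : ℕ) : E.a r k / E.a r' k = E.R.N k ^ (r' - r) := by
  unfold KbEx.a
  rw [← Real.rpow_sub (kb_res_pos E.R k)]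
  congr 1
  ring

/-- (`k2a_hv_lip` with `ε = N^{-(r'-r) - j(u'-u) - τ}`) -/
theorem k2a_rel_hv_lip {E : KbEx v} (hE : E.Ok) {r r' u u' : ℝ} (hr : r ≤ r') (hu : u ≤ u') : K2aRel E (E.hv r u) (E.hv r' u') ((r' - r) + v.j * (u' - u)) := by
  intro τ hτ
  refine k2a_pow_rpow (2 * 2 ^ v.j) hτ ((k2a_ok_wf hE).mono fun k hk => ?_)
  have hN := kb_res_pos E.R k
  obtain ⟨e, he⟩ : ∃ e : ℝ, e = (r' - r) + v.j * (u' - u) := ⟨_, rfl⟩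
  rw [← he]
  have h1 := k2a_hv_lip hk (k2a_a_pos E r' k) (k2a_a_anti E hr k) (k2a_a_pos E u' k) (k2a_a_anti E hu k)
    (ENNReal.ofReal (E.R.N k ^ (-(e + τ))))
  refine (k2a_mass_mono fun γ x hx => ?_).trans (h1.trans ?_)
  · exact k2a_s4_flip hN hx
  · rw [k2a_s4_a_div, k2a_s4_a_div]
    have hp1 : 0 ≤ E.R.N k ^ (-(e + τ)) := (Real.rpow_pos_of_pos hN _).le
    have hp2 : 0 < E.R.N k ^ (r' - r) := Real.rpow_pos_of_pos hN _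
    have hp3 : 0 < E.R.N k ^ (u' - u) := Real.rpow_pos_of_pos hN _
    calc ENNReal.ofReal (E.R.N k ^ (-(e + τ))) * ENNReal.ofReal (2 * E.R.N k ^ (r' - r) * (2 * E.R.N k ^ (u' - u)) ^ v.j) * (E.P k).tot
        ≤ ENNReal.ofReal (E.R.N k ^ (-(e + τ))) * ENNReal.ofReal (2 * E.R.N k ^ (r' - r) * (2 * E.R.N k ^ (u' - u)) ^ v.j) * 1 := by
          gcongr
          exact k2a_tot_le hk
      _ = ENNReal.ofReal (2 * 2 ^ v.j * E.R.N k ^ (-τ)) := by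
          rw [mul_one, ← ENNReal.ofReal_mul hp1]
          congr 1
          have e1 : (2 * E.R.N k ^ (u' - u)) ^ v.j = 2 ^ v.j * E.R.N k ^ ((v.j : ℝ) * (u' - u)) := by
            rw [mul_pow, ← Real.rpow_natCast (E.R.N k ^ (u' - u)), ← Real.rpow_mul hN.le]
            congr 2
            ring
          rw [e1]
          have e2 : E.R.N k ^ (-τ) = E.R.N k ^ (-(e + τ)) * (E.R.N k ^ (r' - r) * E.R.N k ^ ((v.j : ℝ) * (u' - u))) := by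
            rw [← Real.rpow_add hN, ← Real.rpow_add hN]
            congr 1
            rw [he]; ring
          rw [e2]
          ring

/-- (`k2a_hv_le_hid`) -/
theorem k2a_rel_hv_hid {E : KbEx v} (hE : E.Ok) (r u : ℝ) : K2aRel E (E.hv r u) (E.hid r) 0 := by
  refine k2a_rel_of_ae _ _ ((k2a_ok_wf hE).mono fun k hk γ => ?_)
  exact k2a_hv_le_hid hk (E.a r k) (E.a u k) γ

/-- (`k2a_hv_unit`, `K = N^{τ/(2j+1)}`, `ε = N^{-τ}`; `E.a 0 k = 1`) -/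
theorem k2a_rel_hid_hv {E : KbEx v} (hE : E.Ok) (r : ℝ) : K2aRel E (E.hid r) (E.hv r 0) 0 := by
  intro τ hτ
  have hj : (0 : ℝ) < 2 * v.j + 1 := by positivity
  have hτ' : 0 < τ / (2 * v.j + 1) := div_pos hτ hj
  have hc : 0 < τ - v.j * (τ / (2 * v.j + 1)) := by
    have : τ - v.j * (τ / (2 * v.j + 1)) = τ * ((v.j : ℝ) + 1) / (2 * v.j + 1) := by
      field_simp; ring
    rw [this]; positivity
  refine k2a_pow_rpow (6 ^ v.j) hc ?_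
  filter_upwards [k2a_ok_wf hE, hE.2.2 _ hτ'] with k hk hntv
  have hN := kb_res_pos E.R k
  have h1 := k2a_hv_unit hk hntv (E.a r k) (ENNReal.ofReal (E.R.N k ^ (-(0 + τ))))
  refine (k2a_mass_mono fun γ x hx => ?_).trans (h1.trans ?_)
  · have hx' := k2a_s4_flip hN hx
    have e : E.hv r 0 k = (E.P k).hv (E.a r k) 1 := by
      unfold KbEx.hv; rw [k2a_a_zero]
    rw [e] at hx'
    exact hx'
  · obtain ⟨K, hK⟩ : ∃ K : ℝ, K = E.R.N k ^ (τ / (2 * v.j + 1)) := ⟨_, rfl⟩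
    rw [← hK]
    have hK1 : 1 ≤ K := by rw [hK]; exact Real.one_le_rpow (kb_res_one_le E.R k) hτ'.le
    have hp1 : 0 ≤ E.R.N k ^ (-(0 + τ)) := (Real.rpow_pos_of_pos hN _).le
    calc ENNReal.ofReal (E.R.N k ^ (-(0 + τ))) * ENNReal.ofReal ((2 * K + 4) ^ v.j) * (E.P k).tot
        ≤ ENNReal.ofReal (E.R.N k ^ (-(0 + τ))) * ENNReal.ofReal ((2 * K + 4) ^ v.j) * 1 := by
          gcongr
          exact k2a_tot_le hk
      _ = ENNReal.ofReal (E.R.N k ^ (-(0 + τ)) * (2 * K + 4) ^ v.j) := by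
          rw [mul_one, ← ENNReal.ofReal_mul hp1]
      _ ≤ ENNReal.ofReal (6 ^ v.j * E.R.N k ^ (-(τ - v.j * (τ / (2 * v.j + 1))))) := by
          refine ENNReal.ofReal_le_ofReal ?_
          have e1 : (2 * K + 4) ^ v.j ≤ (6 * K) ^ v.j := pow_le_pow_left₀ (by linarith) (by linarith) _
          have e2 : (6 * K) ^ v.j = 6 ^ v.j * E.R.N k ^ ((v.j : ℝ) * (τ / (2 * v.j + 1))) := by
            rw [mul_pow, hK, ← Real.rpow_natCast (E.R.N k ^ (τ / (2 * v.j + 1))), ← Real.rpow_mul hN.le]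
            congr 2
            ring
          have e3 : E.R.N k ^ (-(τ - v.j * (τ / (2 * v.j + 1))))
              = E.R.N k ^ (-(0 + τ)) * E.R.N k ^ ((v.j : ℝ) * (τ / (2 * v.j + 1))) := by
            rw [← Real.rpow_add hN]
            congr 1
            ring
          calc E.R.N k ^ (-(0 + τ)) * (2 * K + 4) ^ v.j ≤ E.R.N k ^ (-(0 + τ)) * (6 * K) ^ v.j :=
                mul_le_mul_of_nonneg_left e1 hp1
            _ = _ := by rw [e2, e3]; ring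

theorem k2a_hub_profile_r_mono (E : KbEx v) (hE : E.Ok) (f : ℝ → ℝ → ℝ) (h : E.Hom f) (r r' u : ℝ) (h0 : 0 ≤ r) (hr : r ≤ r') (hL : r' ≤ E.L) (hu : 0 ≤ u) :
    f r u ≤ f r' u := by
  have h1 := k2a_rel_exp_le hE (k2a_rel_hv_mono hE hr (le_refl u)) (h.joint r' ⟨h0.trans hr, hL⟩ u hu).2 (h.joint r ⟨h0, hr.trans hL⟩ u hu).1
  linarith

theorem k2a_hub_profile_r_lip (E : KbEx v) (hE : E.Ok) (f : ℝ → ℝ → ℝ) (h : E.Hom f) (r r' u : ℝ) (h0 : 0 ≤ r) (hr : r ≤ r') (hL : r' ≤ E.L) (hu : 0 ≤ u) :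
    f r' u - f r u ≤ r' - r := by
  have h1 := k2a_rel_exp_le hE (k2a_rel_hv_lip hE hr (le_refl u)) (h.joint r ⟨h0, hr.trans hL⟩ u hu).2 (h.joint r' ⟨h0.trans hr, hL⟩ u hu).1
  simp only [sub_self, mul_zero, add_zero] at h1
  linarith

theorem k2a_hub_profile_u_mono (E : KbEx v) (hE : E.Ok) (f : ℝ → ℝ → ℝ) (h : E.Hom f) (r u u' : ℝ) (h0 : 0 ≤ r) (hL : r ≤ E.L) (hu : 0 ≤ u) (huu : u ≤ u') :
    f r u ≤ f r u' := by
  have h1 := k2a_rel_exp_le hE (k2a_rel_hv_mono hE (le_refl r) huu) (h.joint r ⟨h0, hL⟩ u' (hu.trans huu)).2 (h.joint r ⟨h0, hL⟩ u hu).1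
  linarith

theorem k2a_hub_profile_u_lip (E : KbEx v) (hE : E.Ok) (f : ℝ → ℝ → ℝ) (h : E.Hom f) (r u u' : ℝ) (h0 : 0 ≤ r) (hL : r ≤ E.L) (hu : 0 ≤ u) (huu : u ≤ u') :
    f r u' - f r u ≤ v.j * (u' - u) := by
  have h1 := k2a_rel_exp_le hE (k2a_rel_hv_lip hE (le_refl r) huu) (h.joint r ⟨h0, hL⟩ u hu).2 (h.joint r ⟨h0, hL⟩ u' (hu.trans huu)).1
  simp only [sub_self, zero_add] at h1
  linarith

/-! ## 5. Leaf L-252-K2A-SEQ-5 : angular caps under coarsening -/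

/-- `k2a_angular_pb` with `aL = a_L`, `ab = a_b`, `u = a_u`, `A = N^{-Su+τ}`, `nL = N^{-f(L,0)}`, `K = N^τ`: the two exceptional masses are `above (hv L u) N^{-f(L,u)+τ}` (as `f L 0 + S u ≤ f L u`) and `below (hid L) N^{-f(L,0)-τ}`. -/
theorem k2a_rel_coarse (E : KbEx v) (d S η : ℝ) (f : ℝ → ℝ → ℝ) (h : E.Cap d S η f) (b u : ℝ) (hb : 0 ≤ b) (hbL : b ≤ E.L) (hu : 0 < u) (huL : u ≤ η * E.L) :
    K2aRel E (E.hv b u) (E.hid b) (-(S * u)) := by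
  intro τ hτ
  have hE := h.ok
  have hL : E.L ∈ Set.Icc 0 E.L := ⟨hE.1.le, le_rfl⟩
  have hτ3 : 0 < τ / 3 := by positivity
  have hup := (k2a_up_iff hE _ _).1 (h.hom.joint E.L hL u hu.le).1 (τ / 3) hτ3
  have hlo := (k2a_lo_iff hE _ _).1 (h.hom.pure E.L hL).2 (τ / 3) hτ3
  have hang := h.ang u hu huL
  refine k2a_pow_mono ?_ (k2a_pow_const_mul (C := 2) (by simp) (k2a_pow_add hup hlo))
  filter_upwards [k2a_ok_wf hE, (kb_rpow_tendsto E.R hτ3).eventually_ge_atTop 2] with k hk h2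
  have hN := kb_res_pos E.R k
  have hN1 := kb_res_one_le E.R k
  have h1 := k2a_angular_pb hk (aL := E.a E.L k) (ab := E.a b k) (u := E.a u k) (k2a_a_pos E _ k) (k2a_a_anti E hbL k)
    (ENNReal.ofReal (E.R.N k ^ (-(S * u) + τ / 3))) (ENNReal.ofReal (E.R.N k ^ (-(f E.L 0)))) (ENNReal.ofReal (E.R.N k ^ (τ / 3)))
  refine (k2a_mass_mono fun γ x hx => ?_).trans (h1.trans ?_)
  · have hx0 : ENNReal.ofReal (E.R.N k ^ (-(S * u) + τ)) * (E.P k).dn (E.hid b k) γ x < (E.P k).dn (E.hv b u k) γ x := hx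
    refine lt_of_le_of_lt (mul_le_mul_left ?_ _) hx0
    have p1 : 0 ≤ E.R.N k ^ (-(S * u) + τ / 3) := (Real.rpow_pos_of_pos hN _).le
    have p2 : 0 < E.R.N k ^ (-(S * u) + τ / 3) * E.R.N k ^ (τ / 3) :=
      mul_pos (Real.rpow_pos_of_pos hN _) (Real.rpow_pos_of_pos hN _)
    rw [← ENNReal.ofReal_mul p1, ← ENNReal.ofReal_ofNat 2, ← ENNReal.ofReal_mul (by norm_num)]
    refine ENNReal.ofReal_le_ofReal ?_
    have e : E.R.N k ^ (-(S * u) + τ) = E.R.N k ^ (τ / 3) * (E.R.N k ^ (-(S * u) + τ / 3) * E.R.N k ^ (τ / 3)) := by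
      rw [← Real.rpow_add hN, ← Real.rpow_add hN]
      congr 1
      ring
    rw [e]
    exact mul_le_mul_of_nonneg_right h2 p2.le
  · refine mul_le_mul_right (add_le_add (k2a_mass_mono fun γ x hx => ?_) (k2a_mass_mono fun γ x hx => ?_)) _
    · have hx0 : ENNReal.ofReal (E.R.N k ^ (-(S * u) + τ / 3)) * ENNReal.ofReal (E.R.N k ^ (-f E.L 0)) <
          (E.P k).dn ((E.P k).hv (E.a E.L k) (E.a u k)) γ x := hx
      refine lt_of_le_of_lt ?_ hx0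
      rw [← ENNReal.ofReal_mul (Real.rpow_pos_of_pos hN _).le, ← Real.rpow_add hN]
      exact ENNReal.ofReal_le_ofReal (Real.rpow_le_rpow_of_exponent_le hN1 (by linarith))
    · have hx' := k2a_s4_flip hN hx
      rw [← ENNReal.ofReal_mul (Real.rpow_pos_of_pos hN _).le, ← Real.rpow_add hN] at hx'
      have e : -(τ / 3) + -f E.L 0 = -f E.L 0 - τ / 3 := by ring
      rw [e] at hx'
      exact hx'

theorem k2a_hub_coarse (E : KbEx v) (d S η : ℝ) (f : ℝ → ℝ → ℝ) (h : E.Cap d S η f) (b u : ℝ) (hb : 0 ≤ b) (hbL : b ≤ E.L) (hu : 0 < u) (huL : u ≤ η * E.L) :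
    f b 0 + S * u ≤ f b u := by
  have h1 := k2a_rel_exp_le h.ok (k2a_rel_coarse E d S η f h b u hb hbL hu huL) (h.hom.joint b ⟨hb, hbL⟩ u hu.le).2 (h.hom.pure b ⟨hb, hbL⟩).1
  linarith

/-! ## 6. Homogenisation -/

/-- the outcome of stage `M` at the index `k` : a measurable selection of mass `≥ N^{-1/(M+1)}` on which the first `M` observations `(p_{r_i}, [V]_{u_i})`, `(r_i, u_i) = g i`, have density `N^{-x_i}` up to `N^{1/(M+1)}` -/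
def K2aStage (E : KbEx v) (g : ℕ → ℝ × ℝ) (Cb : ℕ → ℝ) (M k : ℕ) : Prop :=
  ∃ (S : (E.P k).W → Set ((E.P k).Lam × ℝ)) (x : ℕ → ℝ), (∀ γ, MeasurableSet (S γ)) ∧
    1 ≤ ENNReal.ofReal (E.R.N k ^ (1 / ((M : ℝ) + 1))) * (E.P k).mass S ∧
    ∀ i < M, |x i| ≤ Cb i ∧
      ((E.P k).sel S).mass (((E.P k).sel S).above (E.hv (g i).1 (g i).2 k) (E.R.N k ^ (-(x i) + 1 / ((M : ℝ) + 1)))) = 0 ∧
      ∀ δ : ℝ, 0 ≤ δ → ((E.P k).sel S).mass (((E.P k).sel S).below (E.hv (g i).1 (g i).2 k) (δ * E.R.N k ^ (-(x i)))) ≤ ENNReal.ofReal δ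

theorem k2a_s6_je (v : KbVer) : v.j + v.e = 4 := by cases v <;> rfl

theorem k2a_s6_ceil (v : KbVer) {N A Q : ℝ} (hN : 2 ≤ N) (hQ0 : 0 ≤ Q) (hQA : Q ≤ N ^ A) : Q * (2 * Q) ^ (v.j + v.e) ≤ N ^ (5 * A + 4) := by
  rw [k2a_s6_je]
  have hN0 : 0 < N := by linarith
  have h1 : N ^ (5 * A + 4) = (N ^ A) ^ 5 * N ^ 4 := by
    rw [Real.rpow_add hN0, mul_comm 5 A, Real.rpow_mul hN0.le]
    norm_cast
  rw [h1]
  have h2 : (16:ℝ) ≤ N ^ 4 := by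
    calc (16:ℝ) = 2^4 := by norm_num
      _ ≤ N^4 := pow_le_pow_left₀ (by norm_num) hN 4
  have h3 : Q ^ 5 ≤ (N ^ A) ^ 5 := pow_le_pow_left₀ hQ0 hQA 5
  calc Q * (2 * Q) ^ 4 = Q ^ 5 * 16 := by ring
    _ ≤ (N ^ A) ^ 5 * N ^ 4 := mul_le_mul h3 h2 (by norm_num) (by positivity)

/-- the exponent of the number of values of `(p_r, [V]_u)` -/
def k2aS6c (v : KbVer) (A r u : ℝ) : ℝ := 2 * A + r + 4 + v.j * (6 + u)

theorem k2a_s6_cnt (v : KbVer) {N A Q r u : ℝ} (hN : 2 ≤ N) (hA : 0 ≤ A) (hQ0 : 0 ≤ Q) (hQA : Q ≤ N ^ A) (hr : 0 ≤ r) (hu : 0 ≤ u) :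
    ((6 * Q ^ 2 / N ^ (-r) + 4) * (2 * N / N ^ (-u) + 4) ^ v.j) * (2 * N) ^ v.j ≤ N ^ k2aS6c v A r u := by
  have hN0 : 0 < N := by linarith
  have hN1 : 1 ≤ N := by linarith
  have e1 : 6 * Q ^ 2 / N ^ (-r) + 4 ≤ N ^ (2 * A + r + 4) := by
    have h1 : N ^ (2 * A + r + 4) = (N ^ A) ^ 2 * N ^ r * N ^ 4 := by
      rw [Real.rpow_add hN0, Real.rpow_add hN0, mul_comm 2 A, Real.rpow_mul hN0.le]
      norm_cast
    rw [h1, Real.rpow_neg hN0.le, div_inv_eq_mul]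
    have h2 : (16:ℝ) ≤ N ^ 4 := by
      calc (16:ℝ) = 2^4 := by norm_num
        _ ≤ N^4 := pow_le_pow_left₀ (by norm_num) hN 4
    have h3 : Q ^ 2 ≤ (N ^ A) ^ 2 := pow_le_pow_left₀ hQ0 hQA 2
    have h4 : 1 ≤ N ^ r := Real.one_le_rpow hN1 hr
    have h5 : 1 ≤ (N ^ A) ^ 2 := one_le_pow₀ (Real.one_le_rpow hN1 hA)
    have h6 : 1 ≤ (N ^ A) ^ 2 * N ^ r := by nlinarith
    have h7 : Q ^ 2 * N ^ r ≤ (N ^ A) ^ 2 * N ^ r := mul_le_mul_of_nonneg_right h3 (by linarith)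
    calc 6 * Q ^ 2 * N ^ r + 4 = 6 * (Q ^ 2 * N ^ r) + 4 := by ring
      _ ≤ (N ^ A) ^ 2 * N ^ r * 16 := by linarith
      _ ≤ (N ^ A) ^ 2 * N ^ r * N ^ 4 := mul_le_mul_of_nonneg_left h2 (by linarith)
  have e2 : 2 * N / N ^ (-u) + 4 ≤ N ^ (4 + u) := by
    have h1 : N ^ (4 + u) = N ^ 4 * N ^ u := by
      rw [Real.rpow_add hN0]
      norm_cast
    rw [h1, Real.rpow_neg hN0.le, div_inv_eq_mul]
    have h4 : 1 ≤ N ^ u := Real.one_le_rpow hN1 hu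
    have h2 : (8:ℝ) ≤ N ^ 3 := by
      calc (8:ℝ) = 2^3 := by norm_num
        _ ≤ N^3 := pow_le_pow_left₀ (by norm_num) hN 3
    have h5 : 1 ≤ N * N ^ u := by nlinarith
    calc 2 * N * N ^ u + 4 = 2 * (N * N ^ u) + 4 := by ring
      _ ≤ 8 * (N * N ^ u) := by linarith
      _ ≤ N ^ 3 * (N * N ^ u) := mul_le_mul_of_nonneg_right h2 (by linarith)
      _ = N ^ 4 * N ^ u := by ring
  have e3 : 2 * N ≤ N ^ (2 : ℝ) := by
    have : N ^ (2 : ℝ) = N ^ 2 := by norm_cast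
    rw [this]
    nlinarith
  have e4 : N ^ k2aS6c v A r u = N ^ (2 * A + r + 4) * (N ^ (4 + u)) ^ v.j * (N ^ (2 : ℝ)) ^ v.j := by
    rw [← Real.rpow_natCast (N ^ (4 + u)), ← Real.rpow_natCast (N ^ (2 : ℝ)), ← Real.rpow_mul hN0.le, ← Real.rpow_mul hN0.le, ← Real.rpow_add hN0,
      ← Real.rpow_add hN0]
    congr 1
    unfold k2aS6c
    ring
  rw [e4]
  have p1 : 0 ≤ 6 * Q ^ 2 / N ^ (-r) + 4 := by positivity
  have p2 : 0 ≤ 2 * N / N ^ (-u) + 4 := by positivity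
  exact mul_le_mul (mul_le_mul e1 (pow_le_pow_left₀ p2 e2 _) (by positivity) (by positivity)) (pow_le_pow_left₀ (by positivity) e3 _) (by positivity) (by positivity)

theorem k2a_s6_below {P : KbPb v} (hP : P.WF) {N A Q : ℝ} (hN : 2 ≤ N) (hA : 0 ≤ A) (hK : P.Ntv N) (hQ : P.Tmp Q) (hQA : Q ≤ N ^ A) {r u : ℝ} (hr : 0 ≤ r) (hu : 0 ≤ u)
    {lo : ℝ} (hlo : 0 ≤ lo) : P.mass (P.below (P.hv (N ^ (-r)) (N ^ (-u))) lo) ≤ ENNReal.ofReal (lo * N ^ k2aS6c v A r u) := by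
  have hN0 : 0 < N := by linarith
  have hQ0 : 0 ≤ Q := le_trans (Nat.cast_nonneg _) hQ.card
  refine (k2a_hv_below hP hK hQ (Real.rpow_pos_of_pos hN0 _) (Real.rpow_pos_of_pos hN0 _) lo).trans (ENNReal.ofReal_le_ofReal ?_)
  rw [mul_assoc]
  exact mul_le_mul_of_nonneg_left (k2a_s6_cnt v hN hA hQ0 hQA hr hu) hlo

theorem k2a_s6_enn {a tot t m s b : ℝ≥0∞} (h1 : 1 ≤ a * tot) (h2 : tot ≤ t * m + s) (h3 : 2 * (a * s) ≤ 1) (h4 : 2 * (a * t) ≤ b) : 1 ≤ b * m := by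
  have h5 : (1:ℝ≥0∞) + 1 ≤ b * m + 1 := by
    calc (1:ℝ≥0∞) + 1 = 2 * 1 := by norm_num
      _ ≤ 2 * (a * tot) := mul_le_mul_right h1 _
      _ ≤ 2 * (a * (t * m + s)) := mul_le_mul_right (mul_le_mul_right h2 _) _
      _ = 2 * (a * t) * m + 2 * (a * s) := by ring
      _ ≤ b * m + 1 := add_le_add (mul_le_mul_left h4 _) h3
  exact (ENNReal.add_le_add_iff_right ENNReal.one_ne_top).1 h5

theorem k2a_s6_lb [Countable D] {P : KbPb v} (hP : P.WF) {N Q H y : ℝ} (hN : 2 ≤ N) (hQ : P.Tmp Q) (hH : Q * (2 * Q) ^ (v.j + v.e) ≤ N ^ H) (ℓ : P.Lab D)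
    {S : P.W → Set (P.Lam × ℝ)} (hS : ∀ γ, ∀ x ∈ S γ, ENNReal.ofReal (N ^ y) ≤ P.dn ℓ γ x) (hm : P.mass S ≠ 0) : y ≤ H := by
  by_contra hcon
  have hlt : N ^ H < N ^ y := Real.rpow_lt_rpow_of_exponent_lt (by linarith) (not_le.1 hcon)
  refine hm (le_antisymm ((k2a_mass_mono fun γ x hx => ?_).trans (k2a_above_zero hP hQ ℓ hH).le) zero_le)
  exact lt_of_lt_of_le ((ENNReal.ofReal_lt_ofReal_iff (Real.rpow_pos_of_pos (by linarith) _)).2 hlt) (hS γ x hx)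

theorem k2a_s6_ub {P : KbPb v} (hP : P.WF) {N A Q : ℝ} (hN : 2 ≤ N) (hA : 0 ≤ A) (hK : P.Ntv N) (hQ : P.Tmp Q) (hQA : Q ≤ N ^ A) {r u : ℝ} (hr : 0 ≤ r) (hu : 0 ≤ u)
    {S : P.W → Set (P.Lam × ℝ)} {y ε : ℝ} (hS : ∀ γ, ∀ x ∈ S γ, P.dn (P.hv (N ^ (-r)) (N ^ (-u))) γ x < ENNReal.ofReal (N ^ y))
    (hm : 1 ≤ ENNReal.ofReal (N ^ ε) * P.mass S) : 0 ≤ ε + y + k2aS6c v A r u := by
  have hN0 : 0 < N := by linarith
  have h1 : P.mass S ≤ ENNReal.ofReal (N ^ y * N ^ k2aS6c v A r u) :=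
    (k2a_mass_mono fun γ x hx => hS γ x hx).trans (k2a_s6_below hP hN hA hK hQ hQA hr hu (Real.rpow_pos_of_pos hN0 _).le)
  have h2 : (1 : ℝ≥0∞) ≤ ENNReal.ofReal (N ^ (ε + y + k2aS6c v A r u)) := by
    refine hm.trans ((mul_le_mul_right h1 _).trans ?_)
    rw [← ENNReal.ofReal_mul (Real.rpow_pos_of_pos hN0 _).le, ← Real.rpow_add hN0, ← Real.rpow_add hN0, add_assoc]
  rw [ENNReal.one_le_ofReal] at h2
  by_contra hcon
  exact absurd h2 (not_le.2 (Real.rpow_lt_one_of_one_lt_of_neg (by linarith) (not_le.1 hcon)))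

theorem k2a_s6_pow {N C ε : ℝ} (hN : 0 < N) (n : ℕ) : N ^ (-C) * (N ^ ε) ^ n = N ^ (-(C - ε * n)) := by
  rw [← Real.rpow_natCast (N ^ ε), ← Real.rpow_mul hN.le, ← Real.rpow_add hN]
  congr 1
  ring

theorem k2a_s6_mass {P : KbPb v} (hP : P.WF) {N A Q ε C : ℝ} (hN : 2 ≤ N) (hA : 0 ≤ A) (hK : P.Ntv N) (hQ : P.Tmp Q) (hQA : Q ≤ N ^ A) (hε : 0 < ε)
    (hKε : P.Ntv (N ^ (ε / 2))) (M T : ℕ) (hT0 : 0 < T) (r u : Fin M → ℝ) (hr : ∀ i, 0 ≤ r i) (hu : ∀ i, 0 ≤ u i) (hC : ∀ i, k2aS6c v A (r i) (u i) + 2 ≤ C)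
    (hT : C + (5 * A + 4) + ε ≤ ε * T) (h1 : 2 * (T : ℝ) ^ M ≤ N ^ (ε / 2)) (h2 : 2 * (M : ℝ) ≤ N ^ (2 - ε / 2)) :
    ∃ (S : P.W → Set (P.Lam × ℝ)) (e : Fin M → ℕ), (∀ γ, MeasurableSet (S γ)) ∧ 1 ≤ ENNReal.ofReal (N ^ ε) * P.mass S ∧
      (∀ i γ, ∀ x ∈ S γ, ENNReal.ofReal (N ^ (-C) * (N ^ ε) ^ (e i)) ≤ P.dn (P.hv (N ^ (-(r i))) (N ^ (-(u i)))) γ x ∧
        P.dn (P.hv (N ^ (-(r i))) (N ^ (-(u i)))) γ x < ENNReal.ofReal (N ^ (-C) * (N ^ ε) ^ (e i + 1))) ∧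
      (∀ i, (P.sel S).mass ((P.sel S).above (P.hv (N ^ (-(r i))) (N ^ (-(u i)))) (N ^ (-C) * (N ^ ε) ^ (e i + 1))) = 0) ∧
      ∀ i, ∀ δ : ℝ, 0 ≤ δ → (P.sel S).mass ((P.sel S).below (P.hv (N ^ (-(r i))) (N ^ (-(u i)))) (δ * (N ^ (-C) * (N ^ ε) ^ (e i)))) ≤ ENNReal.ofReal δ * P.tot := by
  have hN0 : 0 < N := by linarith
  have hN1 : 1 < N := by linarith
  have hQ0 : 0 ≤ Q := le_trans (Nat.cast_nonneg _) hQ.card
  obtain ⟨e, e', hSm, hle, hab, hbe⟩ := k2a_homog_core hP (m := M) (m' := 0) hT0 (fun i => P.hv (N ^ (-(r i))) (N ^ (-(u i))))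
    (fun i => k2a_hv_meas hP _ _) (fun i => i.elim0) (fun i => i.elim0) (lo := N ^ (-C)) (ρ := N ^ ε) (Real.rpow_pos_of_pos hN0 _)
    (Real.one_lt_rpow hN1 hε)
  refine ⟨_, fun i => (e i : ℕ), hSm, ?_, fun i γ x hx => hx.1 i, hab, hbe⟩
  have hs : ∀ i : Fin M, P.mass (P.below (P.hv (N ^ (-(r i))) (N ^ (-(u i)))) (N ^ (-C)))
      + (P.mass fun γ => {x | ENNReal.ofReal (N ^ (-C) * (N ^ ε) ^ T) ≤ P.dn (P.hv (N ^ (-(r i))) (N ^ (-(u i)))) γ x}) ≤ ENNReal.ofReal (N ^ (-2 : ℝ)) := by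
    intro i
    have a1 : P.mass (P.below (P.hv (N ^ (-(r i))) (N ^ (-(u i)))) (N ^ (-C))) ≤ ENNReal.ofReal (N ^ (-2 : ℝ)) := by
      refine (k2a_s6_below hP hN hA hK hQ hQA (hr i) (hu i) (Real.rpow_pos_of_pos hN0 _).le).trans (ENNReal.ofReal_le_ofReal ?_)
      rw [← Real.rpow_add hN0]
      exact Real.rpow_le_rpow_of_exponent_le hN1.le (by linarith [hC i])
    have a2 : (P.mass fun γ => {x | ENNReal.ofReal (N ^ (-C) * (N ^ ε) ^ T) ≤ P.dn (P.hv (N ^ (-(r i))) (N ^ (-(u i)))) γ x}) = 0 := by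
      refine le_antisymm ((k2a_mass_mono fun γ x hx => ?_).trans (k2a_above_zero hP hQ (P.hv (N ^ (-(r i))) (N ^ (-(u i)))) (k2a_s6_ceil v hN hQ0 hQA)).le) zero_le
      refine lt_of_lt_of_le ((ENNReal.ofReal_lt_ofReal_iff (by positivity)).2 ?_) hx
      rw [k2a_s6_pow hN0]
      exact Real.rpow_lt_rpow_of_exponent_lt hN1 (by linarith)
    rw [a2, add_zero]
    exact a1
  have hle2 : P.tot ≤ (T : ℝ≥0∞) ^ M * P.mass (k2aType P (fun i => P.hv (N ^ (-(r i))) (N ^ (-(u i)))) (fun i => i.elim0) (N ^ (-C)) (N ^ ε) e e')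
      + (M : ℝ≥0∞) * ENNReal.ofReal (N ^ (-2 : ℝ)) := by
    refine hle.trans ?_
    rw [Finset.univ_eq_empty (α := Fin 0), Finset.sum_empty, add_zero, add_zero]
    refine add_le_add le_rfl ((Finset.sum_le_sum fun i _ => hs i).trans ?_)
    simp
  refine k2a_s6_enn hKε.mass hle2 ?_ ?_
  · have e1 : 2 * (ENNReal.ofReal (N ^ (ε / 2)) * ((M : ℝ≥0∞) * ENNReal.ofReal (N ^ (-2 : ℝ)))) = ENNReal.ofReal (2 * (N ^ (ε / 2) * (M * N ^ (-2 : ℝ)))) := by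
      rw [ENNReal.ofReal_mul (by norm_num), ENNReal.ofReal_mul (by positivity), ENNReal.ofReal_mul (by positivity), ENNReal.ofReal_natCast]
      norm_num
    rw [e1, ENNReal.ofReal_le_one]
    have e2 : N ^ (ε / 2) * N ^ (-2 : ℝ) = (N ^ (2 - ε / 2))⁻¹ := by
      rw [← Real.rpow_add hN0, ← Real.rpow_neg hN0.le]
      congr 1
      ring
    calc 2 * (N ^ (ε / 2) * (M * N ^ (-2 : ℝ))) = 2 * (M : ℝ) * (N ^ (ε / 2) * N ^ (-2 : ℝ)) := by ring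
      _ = 2 * (M : ℝ) * (N ^ (2 - ε / 2))⁻¹ := by rw [e2]
      _ ≤ N ^ (2 - ε / 2) * (N ^ (2 - ε / 2))⁻¹ := mul_le_mul_of_nonneg_right h2 (by positivity)
      _ = 1 := mul_inv_cancel₀ (Real.rpow_pos_of_pos hN0 _).ne'
  · have e1 : 2 * (ENNReal.ofReal (N ^ (ε / 2)) * (T : ℝ≥0∞) ^ M) = ENNReal.ofReal (2 * (N ^ (ε / 2) * (T : ℝ) ^ M)) := by
      rw [ENNReal.ofReal_mul (by norm_num), ENNReal.ofReal_mul (by positivity), ENNReal.ofReal_pow (by positivity), ENNReal.ofReal_natCast]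
      norm_num
    rw [e1]
    refine ENNReal.ofReal_le_ofReal ?_
    calc 2 * (N ^ (ε / 2) * (T : ℝ) ^ M) = N ^ (ε / 2) * (2 * (T : ℝ) ^ M) := by ring
      _ ≤ N ^ (ε / 2) * N ^ (ε / 2) := mul_le_mul_of_nonneg_left h1 (by positivity)
      _ = N ^ ε := by rw [← Real.rpow_add hN0, add_halves]

theorem k2a_s6_c_nonneg (v : KbVer) {A r u : ℝ} (hA : 0 ≤ A) (hr : 0 ≤ r) (hu : 0 ≤ u) : 0 ≤ k2aS6c v A r u := by
  unfold k2aS6c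
  positivity

theorem k2a_s6_one {P : KbPb v} (hP : P.WF) {N A Q ε C : ℝ} (hN : 2 ≤ N) (hA : 0 ≤ A) (hK : P.Ntv N) (hQ : P.Tmp Q) (hQA : Q ≤ N ^ A) (hε : 0 < ε) (hε1 : ε ≤ 1)
    (hKε : P.Ntv (N ^ (ε / 2))) (M T : ℕ) (hT0 : 0 < T) (r u : ℕ → ℝ) (hr : ∀ i, 0 ≤ r i) (hu : ∀ i, 0 ≤ u i) (hC : ∀ i < M, k2aS6c v A (r i) (u i) + 2 ≤ C)
    (hT : C + (5 * A + 4) + ε ≤ ε * T) (h1 : 2 * (T : ℝ) ^ M ≤ N ^ (ε / 2)) (h2 : 2 * (M : ℝ) ≤ N ^ (2 - ε / 2)) :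
    ∃ (S : P.W → Set (P.Lam × ℝ)) (x : ℕ → ℝ), (∀ γ, MeasurableSet (S γ)) ∧ 1 ≤ ENNReal.ofReal (N ^ ε) * P.mass S ∧
      ∀ i < M, |x i| ≤ 5 * A + 4 + (k2aS6c v A (r i) (u i) + 2) ∧
        (P.sel S).mass ((P.sel S).above (P.hv (N ^ (-(r i))) (N ^ (-(u i)))) (N ^ (-(x i) + ε))) = 0 ∧
        ∀ δ : ℝ, 0 ≤ δ → (P.sel S).mass ((P.sel S).below (P.hv (N ^ (-(r i))) (N ^ (-(u i)))) (δ * N ^ (-(x i)))) ≤ ENNReal.ofReal δ := by
  have hN0 : 0 < N := by linarith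
  have hQ0 : 0 ≤ Q := le_trans (Nat.cast_nonneg _) hQ.card
  obtain ⟨S, e, hSm, hm, hin, hab, hbe⟩ := k2a_s6_mass hP hN hA hK hQ hQA hε hKε M T hT0 (fun i => r i) (fun i => u i) (fun i => hr i) (fun i => hu i)
    (fun i => hC i i.2) hT h1 h2
  refine ⟨S, fun i => if h : i < M then C - ε * (e ⟨i, h⟩ : ℕ) else 0, hSm, hm, fun i hi => ?_⟩
  simp only [dif_pos hi]
  have hm0 : P.mass S ≠ 0 := by
    intro h0
    rw [h0, mul_zero] at hm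
    exact absurd hm (by simp)
  have q1 := k2a_s6_pow (N := N) (C := C) (ε := ε) hN0 (e ⟨i, hi⟩)
  have q2 : N ^ (-C) * (N ^ ε) ^ (e ⟨i, hi⟩ + 1) = N ^ (-(C - ε * (e ⟨i, hi⟩ : ℕ)) + ε) := by
    rw [k2a_s6_pow hN0]
    congr 1
    push_cast
    ring
  refine ⟨?_, ?_, ?_⟩
  · have b1 := k2a_s6_lb hP hN hQ (k2a_s6_ceil v hN hQ0 hQA) (P.hv (N ^ (-(r i))) (N ^ (-(u i)))) (S := S) (y := -(C - ε * (e ⟨i, hi⟩ : ℕ)))
      (fun γ x hx => by rw [← q1]; exact (hin ⟨i, hi⟩ γ x hx).1) hm0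
    have b2 := k2a_s6_ub hP hN hA hK hQ hQA (hr i) (hu i) (S := S) (y := -(C - ε * (e ⟨i, hi⟩ : ℕ)) + ε) (ε := ε)
      (fun γ x hx => by rw [← q2]; exact (hin ⟨i, hi⟩ γ x hx).2) hm
    have hc := k2a_s6_c_nonneg v hA (hr i) (hu i)
    rw [abs_le]
    constructor <;> linarith
  · have h3 := hab ⟨i, hi⟩
    rwa [q2] at h3
  · intro δ hδ
    have h3 := hbe ⟨i, hi⟩ δ hδ
    rw [q1] at h3
    exact h3.trans (mul_le_of_le_one_right' (k2a_tot_le hP))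

/-- **Leaf L-252-K2A-SEQ-6.**   `M₀` = exponent of `Tmp`.   `ε = 1/(M+1)`, `ρ = N^ε`, `lo = N^{-C}`, `T = ⌈2C/ε⌉₊ + 1`, `C = C(M)` so large that `N^C ≥ Q (2Q)^{j+e}` (`k2a_above_zero`) and `mass (below ℓ_i lo) ≤ N^{-2}` for `i < M` (`k2a_hv_below`, `K = N`).
`k2a_homog_core` (`m' = 0`): `N^{-ε/2} ≤ tot ≤ T^M mass S + M N^{-2}`, and `2 T^M ≤ N^{ε/2}`, `M N^{-2} ≤ N^{-ε/2}/2` eventually.   `x_i = C - ε e_i`.
BOUNDS, independent of `M`:  `S` has positive mass and `N^{-x_i} ≤ dn ℓ_i < N^{-x_i+ε}` on `S`;  `dn ≤ N^{5 M₀ + 4}` a.e. gives `x_i ≥ -(5 M₀+4)`;   `N^{-ε} ≤ mass S ≤ mass (below ℓ_i N^{-x_i+ε}) ≤ N^{-x_i+ε+c_i}` (`k2a_hv_below`) gives `x_i ≤ c_i + 2`. -/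
theorem k2a_stage (E : KbEx v) (hE : E.Ok) (g : ℕ → ℝ × ℝ) (hg : ∀ i, 0 ≤ (g i).1 ∧ 0 ≤ (g i).2) : ∃ Cb : ℕ → ℝ, ∀ M : ℕ, ∀ᶠ k in uf, K2aStage E g Cb M k := by
  obtain ⟨-, ⟨M₀, hM₀⟩, hntv⟩ := hE
  refine ⟨fun i => 5 * |M₀| + 4 + (k2aS6c v |M₀| (g i).1 (g i).2 + 2), fun M => ?_⟩
  have hε : (0 : ℝ) < 1 / ((M : ℝ) + 1) := by positivity
  have hε1 : 1 / ((M : ℝ) + 1) ≤ 1 := by
    rw [div_le_one (by positivity)]
    linarith [(Nat.cast_nonneg M : (0 : ℝ) ≤ M)]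
  obtain ⟨C, hCdef⟩ : ∃ C : ℝ, C = ∑ i ∈ Finset.range M, (k2aS6c v |M₀| (g i).1 (g i).2 + 2) := ⟨_, rfl⟩
  have hC : ∀ i < M, k2aS6c v |M₀| (g i).1 (g i).2 + 2 ≤ C := by
    intro i hi
    rw [hCdef]
    exact Finset.single_le_sum (f := fun i => k2aS6c v |M₀| (g i).1 (g i).2 + 2)
      (fun j _ => by have := k2a_s6_c_nonneg v (abs_nonneg M₀) (hg j).1 (hg j).2; linarith) (Finset.mem_range.2 hi)
  obtain ⟨T, hT0, hT⟩ : ∃ T : ℕ, 0 < T ∧ C + (5 * |M₀| + 4) + 1 / ((M : ℝ) + 1) ≤ 1 / ((M : ℝ) + 1) * T := by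
    refine ⟨⌈(C + (5 * |M₀| + 4) + 1 / ((M : ℝ) + 1)) / (1 / ((M : ℝ) + 1))⌉₊ + 1, Nat.succ_pos _, ?_⟩
    have h := Nat.le_ceil ((C + (5 * |M₀| + 4) + 1 / ((M : ℝ) + 1)) / (1 / ((M : ℝ) + 1)))
    rw [div_le_iff₀ hε] at h
    push_cast
    nlinarith
  filter_upwards [hM₀, hntv 1 one_pos, hntv (1 / ((M : ℝ) + 1) / 2) (by positivity),
    (kb_rpow_tendsto E.R (half_pos hε)).eventually_ge_atTop (2 * (T : ℝ) ^ M),
    (kb_rpow_tendsto E.R (show 0 < 2 - 1 / ((M : ℝ) + 1) / 2 by linarith)).eventually_ge_atTop (2 * (M : ℝ))] with k hk1 hk2 hk3 hk4 hk5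
  rw [Real.rpow_one] at hk2
  exact k2a_s6_one hk1.1 (E.R.two_le k) (abs_nonneg _) hk2 hk1.2 (Real.rpow_le_rpow_of_exponent_le (kb_res_one_le E.R k) (le_abs_self _)) hε hε1 hk3 M T hT0
    (fun i => (g i).1) (fun i => (g i).2) (fun i => (hg i).1) (fun i => (hg i).2) hC hT hk4 hk5

theorem k2a_s7_above_anti (P : KbPb v) (ℓ : P.Lab D) {hi hi' : ℝ} (h : hi ≤ hi') : P.mass (P.above ℓ hi') ≤ P.mass (P.above ℓ hi) :=
  k2a_mass_mono fun _ _ hx => lt_of_le_of_lt (ENNReal.ofReal_le_ofReal h) hx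

theorem k2a_s7_below_mono (P : KbPb v) (ℓ : P.Lab D) {lo lo' : ℝ} (h : lo ≤ lo') : P.mass (P.below ℓ lo) ≤ P.mass (P.below ℓ lo') :=
  k2a_mass_mono fun _ _ hx => lt_of_lt_of_le hx (ENNReal.ofReal_le_ofReal h)

/-- **Leaf L-252-K2A-SEQ-7.**   `R255.ulim_diag` gives `κ → ∞` with `K2aStage E g Cb (κ k) k` eventually; choose `S k`, `x k`;   `F i = ulim fun k => x k i` (`UBdd` by `Cb i`; `R255.ulim_tendsto`).
For fixed `i, τ`: eventually `i < κ k`, `1/(κ k + 1) < τ/3`, `|x k i - F i| < τ/3`;   upper bound: the exceptional mass is `0`;   lower bound: `δ = N^{-τ/3}`. -/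
theorem k2a_grid (E : KbEx v) (hE : E.Ok) (g : ℕ → ℝ × ℝ) (hg : ∀ i, 0 ≤ (g i).1 ∧ 0 ≤ (g i).2) :
    ∃ (S : E.Sel) (F : ℕ → ℝ), (∀ᶠ k in uf, ∀ γ, MeasurableSet (S k γ)) ∧
      (∀ τ : ℝ, 0 < τ → ∀ᶠ k in uf, 1 ≤ ENNReal.ofReal (E.R.N k ^ τ) * (E.P k).mass (S k)) ∧ ∀ i, (E.sel S).Typ (E.hv (g i).1 (g i).2) (F i) := by
  classical
  obtain ⟨Cb, hst⟩ := k2a_stage E hE g hg
  obtain ⟨κ, hκ, hgood⟩ := Claimed.Agent.R255.ulim_diag (fun M k => K2aStage E g Cb M k) hst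
  have hch : ∀ k, ∃ (S : (E.P k).W → Set ((E.P k).Lam × ℝ)) (x : ℕ → ℝ), K2aStage E g Cb (κ k) k → ((∀ γ, MeasurableSet (S γ)) ∧
      1 ≤ ENNReal.ofReal (E.R.N k ^ (1 / ((κ k : ℝ) + 1))) * (E.P k).mass S ∧
      ∀ i < κ k, |x i| ≤ Cb i ∧
        ((E.P k).sel S).mass (((E.P k).sel S).above (E.hv (g i).1 (g i).2 k) (E.R.N k ^ (-(x i) + 1 / ((κ k : ℝ) + 1)))) = 0 ∧
        ∀ δ : ℝ, 0 ≤ δ → ((E.P k).sel S).mass (((E.P k).sel S).below (E.hv (g i).1 (g i).2 k) (δ * E.R.N k ^ (-(x i)))) ≤ ENNReal.ofReal δ) := by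
    intro k
    by_cases h : K2aStage E g Cb (κ k) k
    · obtain ⟨S, x, hSx⟩ := h
      exact ⟨S, x, fun _ => hSx⟩
    · exact ⟨fun _ => ∅, fun _ => 0, fun h' => absurd h' h⟩
  choose S x hSx using hch
  have hev := hgood.mono fun k hk => hSx k hk
  have hsl := kb_slow_tend hκ
  have hB : ∀ i, UBdd fun k => x k i := by
    intro i
    refine ⟨Cb i, ?_⟩
    filter_upwards [hev, hκ.eventually_gt_atTop i] with k hk hi
    exact (hk.2.2 i hi).1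
  have hlim : ∀ i, Tendsto (fun k => x k i) uf (𝓝 (ulim fun k => x k i)) := fun i => Claimed.Agent.R255.ulim_tendsto _ (hB i)
  refine ⟨S, fun i => ulim fun k => x k i, hev.mono fun k hk => hk.1, fun τ hτ => ?_, fun i => ⟨fun τ hτ => ?_, fun τ hτ => ?_⟩⟩
  · filter_upwards [hev, hsl.eventually (eventually_le_nhds hτ)] with k hk hk'
    refine hk.2.1.trans (mul_le_mul_left (ENNReal.ofReal_le_ofReal ?_) _)
    exact Real.rpow_le_rpow_of_exponent_le (kb_res_one_le E.R k) hk'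
  · refine ⟨1, one_pos, ?_⟩
    have h1 := (hlim i).eventually (eventually_ge_nhds (show (ulim fun k => x k i) - τ / 2 < ulim fun k => x k i by linarith))
    filter_upwards [hev, hκ.eventually_gt_atTop i, hsl.eventually (eventually_le_nhds (half_pos hτ)), h1] with k hk hi hk' hx
    have h2 : ((E.P k).sel (S k)).mass (((E.P k).sel (S k)).above (E.hv (g i).1 (g i).2 k) (E.R.N k ^ (-(ulim fun k => x k i) + τ))) = 0 := by
      refine le_antisymm ((k2a_s7_above_anti _ _ ?_).trans (hk.2.2 i hi).2.1.le) zero_le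
      exact Real.rpow_le_rpow_of_exponent_le (kb_res_one_le E.R k) (by linarith)
    have h3 : (E.sel S).massOf (fun k => ((E.sel S).P k).above (E.hv (g i).1 (g i).2 k) ((E.sel S).R.N k ^ (-(ulim fun k => x k i) + τ))) k = 0 := by
      show (((E.P k).sel (S k)).mass (((E.P k).sel (S k)).above (E.hv (g i).1 (g i).2 k) (E.R.N k ^ (-(ulim fun k => x k i) + τ)))).toReal = 0
      rw [h2]
      rfl
    rw [h3]
    exact (Real.rpow_pos_of_pos (kb_res_pos E.R k) _).le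
  · refine ⟨τ / 3, by positivity, ?_⟩
    have h1 := (hlim i).eventually (eventually_le_nhds (show (ulim fun k => x k i) < (ulim fun k => x k i) + τ / 2 by linarith))
    filter_upwards [hev, hκ.eventually_gt_atTop i, h1] with k hk hi hx
    have hN := kb_res_pos E.R k
    have h2 : ((E.P k).sel (S k)).mass (((E.P k).sel (S k)).below (E.hv (g i).1 (g i).2 k) (E.R.N k ^ (-(ulim fun k => x k i) - τ))) ≤ ENNReal.ofReal (E.R.N k ^ (-(τ / 3))) := by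
      refine (k2a_s7_below_mono _ _ ?_).trans ((hk.2.2 i hi).2.2 (E.R.N k ^ (-(τ / 3))) (Real.rpow_pos_of_pos hN _).le)
      rw [← Real.rpow_add hN]
      exact Real.rpow_le_rpow_of_exponent_le (kb_res_one_le E.R k) (by linarith)
    exact ENNReal.toReal_le_of_le_ofReal (Real.rpow_pos_of_pos hN _).le h2

theorem k2a_grid_aux (r δ : ℝ) (hr : 0 ≤ r) (hδ : 0 < δ) : ∃ q q' : ℚ, |(q : ℝ)| ≤ r ∧ r ≤ |(q' : ℝ)| ∧ |(q' : ℝ)| - |(q : ℝ)| ≤ δ := by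
  obtain ⟨q', h1, h2⟩ := exists_rat_btwn (show r < r + δ / 2 by linarith)
  have hq' : |(q' : ℝ)| = q' := abs_of_nonneg (by linarith)
  by_cases h : r ≤ δ / 2
  · refine ⟨0, q', by simpa using hr, by rw [hq']; exact h1.le, ?_⟩
    rw [hq']
    simp only [Rat.cast_zero, abs_zero, sub_zero]
    linarith
  · obtain ⟨q, h3, h4⟩ := exists_rat_btwn (show r - δ / 2 < r by linarith)
    have hq : |(q : ℝ)| = q := abs_of_nonneg (by linarith)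
    refine ⟨q, q', by rw [hq]; exact h4.le, by rw [hq']; exact h1.le, ?_⟩
    rw [hq, hq']
    linarith

/-- **Leaf L-252-K2A-SEQ-8.**   an enumeration of `ℚ≥0 × ℚ≥0` -/
theorem k2a_grid_exists : ∃ g : ℕ → ℝ × ℝ, (∀ i, 0 ≤ (g i).1 ∧ 0 ≤ (g i).2) ∧ ∀ r u δ : ℝ, 0 ≤ r → 0 ≤ u → 0 < δ →
    ∃ i i', (g i).1 ≤ r ∧ r ≤ (g i').1 ∧ (g i).2 ≤ u ∧ u ≤ (g i').2 ∧ (g i').1 - (g i).1 ≤ δ ∧ (g i').2 - (g i).2 ≤ δ := by
  obtain ⟨f, hf⟩ := exists_surjective_nat (ℚ × ℚ)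
  refine ⟨fun i => (|((f i).1 : ℝ)|, |((f i).2 : ℝ)|), fun i => ⟨abs_nonneg _, abs_nonneg _⟩, fun r u δ hr hu hδ => ?_⟩
  obtain ⟨q₁, q₁', a1, a2, a3⟩ := k2a_grid_aux r δ hr hδ
  obtain ⟨q₂, q₂', b1, b2, b3⟩ := k2a_grid_aux u δ hu hδ
  obtain ⟨i, hi⟩ := hf (q₁, q₂)
  obtain ⟨i', hi'⟩ := hf (q₁', q₂')
  refine ⟨i, i', ?_⟩
  simp only [hi, hi']
  exact ⟨a1, a2, b1, b2, a3, b3⟩

/-- SEQ-8.   From the grid to all depths: lower grid point `i`, upper grid point `i'`: `TypUp (hv r u) (F i)` (`k2a_rel_hv_mono`, `k2a_rel_up`), `TypLo (hv r u) (F i')` (`k2a_rel_lo`), `F i' - F i ≤ (1 + j) δ` (`k2a_rel_hv_lip`, `k2a_rel_exp_le`); `k2a_typ_squeeze`. -/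
theorem k2a_typ_all (E : KbEx v) (hE : E.Ok) (g : ℕ → ℝ × ℝ) (F : ℕ → ℝ)
    (hd : ∀ r u δ : ℝ, 0 ≤ r → 0 ≤ u → 0 < δ → ∃ i i', (g i).1 ≤ r ∧ r ≤ (g i').1 ∧ (g i).2 ≤ u ∧ u ≤ (g i').2 ∧ (g i').1 - (g i).1 ≤ δ ∧ (g i').2 - (g i).2 ≤ δ)
    (hT : ∀ i, E.Typ (E.hv (g i).1 (g i).2) (F i)) (r u : ℝ) (hr : 0 ≤ r) (hu : 0 ≤ u) : ∃ f, E.Typ (E.hv r u) f := by
  refine k2a_typ_squeeze hE _ fun δ hδ => ?_
  have hj : (0 : ℝ) < 1 + v.j := by positivity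
  obtain ⟨i, i', a1, a2, b1, b2, a3, b3⟩ := hd r u (δ / (1 + v.j)) hr hu (div_pos hδ hj)
  refine ⟨F i, F i', ?_, ?_, ?_⟩
  · have h1 := k2a_rel_exp_le hE (k2a_rel_hv_lip hE (a1.trans a2) (b1.trans b2)) (hT i).2 (hT i').1
    have h2 : (v.j : ℝ) * ((g i').2 - (g i).2) ≤ v.j * (δ / (1 + v.j)) := mul_le_mul_of_nonneg_left b3 (by positivity)
    have h3 : δ / (1 + v.j) + v.j * (δ / (1 + v.j)) = δ := by
      field_simp
    linarith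
  · have h1 := k2a_rel_up hE (k2a_rel_hv_mono hE a1 b1) (hT i).1
    rwa [sub_zero] at h1
  · have h1 := k2a_rel_lo hE (k2a_rel_hv_mono hE a2 b2) (hT i').2
    rwa [add_zero] at h1

/-- SEQ-8.   (`f r u` = a choice in `k2a_typ_all`; `pure` by `k2a_rel_typ` with `k2a_rel_hv_hid`, `k2a_rel_hid_hv`) -/
theorem k2a_hom_of_typ (E : KbEx v) (hE : E.Ok) (h : ∀ r u : ℝ, 0 ≤ r → 0 ≤ u → ∃ f, E.Typ (E.hv r u) f) : ∃ f : ℝ → ℝ → ℝ, E.Hom f := by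
  classical
  have h' : ∀ r u : ℝ, ∃ f, 0 ≤ r → 0 ≤ u → E.Typ (E.hv r u) f := by
    intro r u
    by_cases h0 : 0 ≤ r ∧ 0 ≤ u
    · obtain ⟨f, hf⟩ := h r u h0.1 h0.2
      exact ⟨f, fun _ _ => hf⟩
    · exact ⟨0, fun h1 h2 => absurd ⟨h1, h2⟩ h0⟩
  choose f hf using h'
  refine ⟨f, fun r hr => ?_, fun r hr u hu => hf r u hr.1 hu⟩
  exact k2a_rel_typ hE (k2a_rel_hv_hid hE r 0) (k2a_rel_hid_hv hE r) (hf r 0 hr.1 le_rfl)

/-- **L2.5 homogenisation** -/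
theorem k2a_hub_homog (E : KbEx v) (hE : E.Ok) : ∃ (S : E.Sel) (f : ℝ → ℝ → ℝ), ((∀ᶠ k in uf, ∀ γ, MeasurableSet (S k γ)) ∧
    ∀ τ : ℝ, 0 < τ → ∀ᶠ k in uf, 1 ≤ ENNReal.ofReal (E.R.N k ^ τ) * (E.P k).mass (S k)) ∧ (E.sel S).Hom f := by
  obtain ⟨g, hg, hd⟩ := k2a_grid_exists
  obtain ⟨S, F, hSm, hSd, hT⟩ := k2a_grid E hE g hg
  have hE' := k2a_hub_sel_ok E hE S hSm hSd
  obtain ⟨f, hf⟩ := k2a_hom_of_typ (E.sel S) hE' fun r u hr hu => k2a_typ_all (E.sel S) hE' g F hd hT r u hr hu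
  exact ⟨S, f, ⟨hSm, hSd⟩, hf⟩

end

end Claimed.Agent.R252
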